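import Vale.Agent.P150.Beyond.Planted.Det

/-!
# P150 beyond one half: no failure at a typical sample

The error terms of `site_errors`, summed, are of order `1 / 1000`; the certificate leaves `1 / 100`.
-/

open Real Finset
open Vale.Agent.P150.Fast

namespace Vale.Agent.P150.Beyond.Planted

variable {n : ℕ}

theorem sq_four (A B C D : ℝ) : (A + B + C - D) ^ 2 ≤ 4 * (A ^ 2 + B ^ 2 + C ^ 2 + D ^ 2) := by
  linarith [sq_nonneg (A - B), sq_nonneg (A - C), sq_nonneg (A + D), sq_nonneg (B - C),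
    sq_nonneg (B + D), sq_nonneg (C + D)]

theorem field_site {β : ℝ} (hβ0 : 0 ≤ β) (hβ : β ≤ 1) (w η S x t : ℝ) :
    (w + β * η + β * ((S - 2 * x) * t) - β ^ 2 * t) ^ 2 ≤
      4 * w ^ 2 + 4 * η ^ 2 + 4 * (2 * (S ^ 2 * t ^ 2) + 8 * (x ^ 2 * t ^ 2)) + 4 * t ^ 2 := by
  have hb2 : β ^ 2 ≤ 1 := pow_le_one₀ hβ0 hβ
  have q1 : (β * η) ^ 2 ≤ η ^ 2 := by
    rw [mul_pow]; exact mul_le_of_le_one_left (sq_nonneg _) hb2
  have q2 : (β * ((S - 2 * x) * t)) ^ 2 ≤ 2 * (S ^ 2 * t ^ 2) + 8 * (x ^ 2 * t ^ 2) := by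
    rw [mul_pow β]
    refine (mul_le_of_le_one_left (sq_nonneg _) hb2).trans ?_
    linarith [mul_nonneg (sq_nonneg (S + 2 * x)) (sq_nonneg t)]
  have q3 : (β ^ 2 * t) ^ 2 ≤ t ^ 2 := by
    rw [mul_pow]; exact mul_le_of_le_one_left (sq_nonneg _) (pow_le_one₀ (sq_nonneg β) hb2)
  linarith [sq_four w (β * η) (β * ((S - 2 * x) * t)) (β ^ 2 * t)]

theorem field_perturb {β σ ρ ε e' : ℝ} {ζ z r w : Fin n → ℝ} (hβ0 : 0 ≤ β) (hβ : β ≤ 1)
    (hn : (0 : ℝ) < n) (hw : ∑ i, w i ^ 2 ≤ ε * n) (hε : ε ≤ ρ ^ 2 / 64)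
    (he2 : e' ^ 2 ≤ ρ ^ 2 / 1024) (hinv : 1 / (n : ℝ) ^ 2 ≤ ρ ^ 2 / 1000000)
    (hη : ∑ i, (r i - ζ i) ^ 2 ≤ ρ ^ 2 / 100 * n) (hsr : |∑ i, r i| ≤ 4 * (n * e'))
    (hr2 : ∑ i, r i ^ 2 ≤ 24 * n) :
    ∑ i, (rfield β σ r z i + w i - pfield β σ (ζ i, z i)) ^ 2 ≤ ρ ^ 2 * n := by
  have hpt : ∀ i, (rfield β σ r z i + w i - pfield β σ (ζ i, z i)) ^ 2 ≤
      4 * w i ^ 2 + 4 * (r i - ζ i) ^ 2 +
        4 * (2 * ((∑ j, r j) ^ 2 * (1 / (n : ℝ)) ^ 2) + 8 * (r i ^ 2 * (1 / (n : ℝ)) ^ 2)) +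
          4 * (1 / (n : ℝ)) ^ 2 := fun i => by
    have e : rfield β σ r z i + w i - pfield β σ (ζ i, z i) =
        w i + β * (r i - ζ i) + β * (((∑ j, r j) - 2 * r i) * (1 / n)) - β ^ 2 * (1 / n) := by
      simp only [rfield, pfield]; field_simp; ring
    rw [e]
    exact field_site hβ0 hβ _ _ _ _ _
  refine (Finset.sum_le_sum fun i _ => hpt i).trans ?_
  simp only [Finset.sum_add_distrib, ← Finset.mul_sum, ← Finset.sum_mul, Finset.sum_const,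
    Finset.card_univ, Fintype.card_fin, nsmul_eq_mul]
  rw [one_div_pow]
  have p1 : (∑ j, r j) ^ 2 * (1 / (n : ℝ) ^ 2) ≤ ρ ^ 2 / 64 := by
    have : (∑ j, r j) ^ 2 ≤ (4 * (n * e')) ^ 2 := by
      rw [← sq_abs (∑ j, r j)]; exact pow_le_pow_left₀ (abs_nonneg _) hsr 2
    refine (mul_le_mul_of_nonneg_right this (by positivity)).trans ?_
    rw [show (4 * ((n : ℝ) * e')) ^ 2 * (1 / (n : ℝ) ^ 2) = 16 * e' ^ 2 by field_simp; ring]
    linarith
  have p2 : (∑ i, r i ^ 2) * (1 / (n : ℝ) ^ 2) ≤ 24 * n * (ρ ^ 2 / 1000000) :=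
    mul_le_mul hr2 hinv (by positivity) (by positivity)
  have p3 := mul_le_mul_of_nonneg_left p1 hn.le
  have p4 := mul_le_mul_of_nonneg_left hinv hn.le
  have p5 := mul_le_mul_of_nonneg_right hε hn.le
  linarith [mul_nonneg (sq_nonneg ρ) hn.le]

theorem averages {β σ a mA mT K ρ e' : ℝ} {ζ z y r h : Fin n → ℝ}
    (hβ0 : 0 ≤ β) (hβ : β ≤ 1) (ha0 : 0 ≤ a) (ha : a ≤ 1 / 2) (hK : 1 ≤ K) (hρ0 : 0 ≤ ρ)
    (hKρ : K ^ 2 * ρ ≤ 1 / 100000) (hd : ∑ i, (h i - pfield β σ (ζ i, z i)) ^ 2 ≤ ρ ^ 2 * n)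
    (hη : ∑ i, (r i - ζ i) ^ 2 ≤ (1 / 100000) ^ 2 * n)
    (hty : Typical (1 / 100000) e' K β σ a mA mT ζ z y) :
    ∑ i, y i ^ 2 * fw a (h i) ≤ n * (mA + 15 / 100000) ∧
    ∑ i, (2 * β ^ 2 * tanh (h i) ^ 2 + (β + r i) ^ 2) * fw a (h i) ≤ n * (mT + 90 / 100000) ∧
    |∑ i, y i * tanh (h i) * fw a (h i)| ≤ n * (30 / 100000) ∧
    |∑ i, y i * (β + r i) * fw a (h i)| ≤ n * (50 / 100000) := by
  have hn : (0 : ℝ) ≤ n := Nat.cast_nonneg n
  have hK0 : 0 ≤ K := by linarith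
  have hρ1 : ρ ≤ 1 / 100000 := (le_mul_of_one_le_left hρ0 (one_le_pow₀ hK)).trans hKρ
  have hKρ1 : K * ρ ≤ 1 / 100000 :=
    (mul_le_mul_of_nonneg_right (le_self_pow₀ hK two_ne_zero) hρ0).trans hKρ
  have hdabs := sum_abs_le hρ0 hd
  have d2 : K ^ 2 * ∑ i, |h i - pfield β σ (ζ i, z i)| ≤ 1 / 100000 * n := by
    refine (mul_le_mul_of_nonneg_left hdabs (sq_nonneg K)).trans ?_
    rw [← mul_assoc]; exact mul_le_mul_of_nonneg_right hKρ hn
  have d1 : K * ∑ i, |h i - pfield β σ (ζ i, z i)| ≤ 1 / 100000 * n := by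
    refine (mul_le_mul_of_nonneg_left hdabs hK0).trans ?_
    rw [← mul_assoc]; exact mul_le_mul_of_nonneg_right hKρ1 hn
  have d0 : ∑ i, |h i - pfield β σ (ζ i, z i)| ≤ 1 / 100000 * n :=
    hdabs.trans (mul_le_mul_of_nonneg_right hρ1 hn)
  have err := fun i => site_errors (a := a) (K := K) (τ := 1 / 100000) (β := β) (y := y i)
    (H := β + r i) (H₀ := β + ζ i) (h := h i) (h₀ := pfield β σ (ζ i, z i)) ha0 ha hK
    (by norm_num) (by norm_num) hβ0 hβ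
  have hH0 : ∑ i, (β + ζ i) ^ 2 ≤ 8 * n := by
    refine (Finset.sum_le_sum fun i _ => show (β + ζ i) ^ 2 ≤ 2 + 2 * ζ i ^ 2 by
      linarith [sq_nonneg (β - ζ i), pow_le_one₀ (n := 2) hβ0 hβ]).trans ?_
    simp only [Finset.sum_add_distrib, ← Finset.mul_sum, Finset.sum_const, Finset.card_univ,
      Fintype.card_fin, nsmul_eq_mul]
    linarith [hty.sq_ζ]
  have hrζ : ∀ i, (β + r i - (β + ζ i)) = r i - ζ i := fun i => by ring
  simp only [hrζ] at err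
  refine ⟨?_, ?_, ?_, ?_⟩
  · refine (Finset.sum_le_sum fun i _ => (err i).1).trans ?_
    have := hty.avgA
    simp only [siteA] at this
    simp only [Finset.sum_add_distrib, ← Finset.mul_sum]
    linarith [hty.tail_y]
  · refine (Finset.sum_le_sum fun i _ => (err i).2.1).trans ?_
    have := hty.avgT
    simp only [siteT] at this
    simp only [Finset.sum_add_distrib, ← Finset.mul_sum]
    linarith [hty.tail_H]
  · have h1 := (Finset.abs_sum_le_sum_abs _ univ).trans (Finset.sum_le_sum fun i _ => (err i).2.2.1)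
    have := hty.avgC
    simp only [siteC] at this
    simp only [Finset.sum_add_distrib, Finset.sum_sub_distrib, ← Finset.mul_sum] at h1
    obtain ⟨a1, a2⟩ := abs_le.1 h1
    obtain ⟨b1, b2⟩ := abs_le.1 this
    refine abs_le.2 ⟨?_, ?_⟩ <;> linarith [hty.tail_y]
  · have h1 := (Finset.abs_sum_le_sum_abs _ univ).trans (Finset.sum_le_sum fun i _ => (err i).2.2.2)
    have := hty.avgD
    simp only [siteD] at this
    simp only [Finset.sum_add_distrib, Finset.sum_sub_distrib, ← Finset.mul_sum] at h1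
    obtain ⟨a1, a2⟩ := abs_le.1 h1
    obtain ⟨b1, b2⟩ := abs_le.1 this
    refine abs_le.2 ⟨?_, ?_⟩ <;> linarith [hty.tail_y, hty.tail_H, hty.sq_y]

/-- The rank three form, with the four averages bounded. -/
theorem form_le {β a mA mT : ℝ} {r h y : Fin n → ℝ} (hβ0 : 0 ≤ β) (hβ : β ≤ 3 / 5)
    (ha3 : 1 / 3 ≤ a) (ha : a ≤ 1 / 2) (hn : (0 : ℝ) < n)
    (hA : β ^ 2 / a * mA ≤ 1001 / 1000 * (99 / 100)) (hT : mT ≤ 1001 / 1000 * (99 / 100))
    (sA : ∑ i, y i ^ 2 * fw a (h i) ≤ n * (mA + 15 / 100000))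
    (sT : ∑ i, (2 * β ^ 2 * tanh (h i) ^ 2 + (β + r i) ^ 2) * fw a (h i) ≤
      n * (mT + 90 / 100000))
    (sC : |∑ i, y i * tanh (h i) * fw a (h i)| ≤ n * (30 / 100000))
    (sD : |∑ i, y i * (β + r i) * fw a (h i)| ≤ n * (50 / 100000)) (u : Fin n → ℝ) :
    (β / (√a * √(n : ℝ)) * ∑ i, y i * u i) ^ 2 +
        2 * β ^ 2 / n * (∑ i, tanh (h i) * u i) ^ 2 +
        (β * (∑ i, u i) + ∑ i, r i * u i) ^ 2 / n ≤
      (1 - 1 / 10000) * ∑ i, u i ^ 2 * cosh (h i) ^ 2 - (a + 1 / 10000) * ∑ i, u i ^ 2 := by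
  have hap : 0 < a := by linarith
  have hsn : 0 < √(n : ℝ) := sqrt_pos.2 hn
  have hsa : 0 < √a := sqrt_pos.2 hap
  have hsn2 := sq_sqrt hn.le
  have hsa2 := sq_sqrt hap.le
  have hs2 := sq_sqrt (show (0:ℝ) ≤ 2 by norm_num)
  have hba : β / √a ≤ 6 / 5 := by
    rw [div_le_iff₀ hsa]
    have : 1 / 2 ≤ √a := le_sqrt_of_sq_le (by linarith)
    linarith
  have hba2 : β ^ 2 / a ≤ 36 / 25 := by
    rw [div_le_iff₀ hap]
    linarith [pow_le_pow_left₀ hβ0 hβ 2]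
  have key := rank_three (fun i => fw a (h i)) (fun i => β / (√a * √(n : ℝ)) * y i)
    (fun i => √2 * β / √(n : ℝ) * tanh (h i)) (fun i => (β + r i) / √(n : ℝ))
    (fun i => fw_pos ha _) (A := 994 / 1000) (e := 1 / 1000) ?_ ?_ ?_ ?_ (by norm_num) u
  · have hsum : ∑ i, u i ^ 2 / fw a (h i) = (1 - 1 / 10000) * ∑ i, u i ^ 2 * cosh (h i) ^ 2 -
        (a + 1 / 10000) * ∑ i, u i ^ 2 := by
      rw [Finset.mul_sum, Finset.mul_sum, ← Finset.sum_sub_distrib]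
      refine Finset.sum_congr rfl fun i _ => ?_
      rw [fw, div_div_eq_mul_div, div_one]; ring
    have k1 : ∑ i, β / (√a * √(n : ℝ)) * y i * u i = β / (√a * √(n : ℝ)) * ∑ i, y i * u i := by
      rw [Finset.mul_sum]; exact Finset.sum_congr rfl fun i _ => mul_assoc _ _ _
    have k2 : (∑ i, √2 * β / √(n : ℝ) * tanh (h i) * u i) ^ 2 =
        2 * β ^ 2 / n * (∑ i, tanh (h i) * u i) ^ 2 := by
      simp only [mul_assoc (√2 * β / √(n : ℝ)), ← Finset.mul_sum, mul_pow, div_pow, hs2, hsn2]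
    have k3 : (∑ i, (β + r i) / √(n : ℝ) * u i) ^ 2 =
        (β * (∑ i, u i) + ∑ i, r i * u i) ^ 2 / n := by
      simp only [div_mul_eq_mul_div, ← Finset.sum_div, add_mul, Finset.sum_add_distrib,
        ← Finset.mul_sum, div_pow, hsn2]
    rw [hsum, k1, k2, k3] at key
    exact key
  · calc ∑ i, (β / (√a * √(n : ℝ)) * y i) ^ 2 * fw a (h i)
        = β ^ 2 / a / n * ∑ i, y i ^ 2 * fw a (h i) := by
          rw [Finset.mul_sum]
          refine Finset.sum_congr rfl fun i _ => ?_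
          rw [mul_pow, div_pow, mul_pow, hsa2, hsn2, div_div]; ring
      _ ≤ β ^ 2 / a / n * (n * (mA + 15 / 100000)) := mul_le_mul_of_nonneg_left sA (by positivity)
      _ = β ^ 2 / a * mA + β ^ 2 / a * (15 / 100000) := by field_simp
      _ ≤ _ := by linarith
  · calc ∑ i, ((√2 * β / √(n : ℝ) * tanh (h i)) ^ 2 + ((β + r i) / √(n : ℝ)) ^ 2) * fw a (h i)
        = (∑ i, (2 * β ^ 2 * tanh (h i) ^ 2 + (β + r i) ^ 2) * fw a (h i)) / n := by
          rw [Finset.sum_div]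
          refine Finset.sum_congr rfl fun i _ => ?_
          rw [mul_pow, div_pow, mul_pow, hs2, hsn2, div_pow, hsn2]; ring
      _ ≤ n * (mT + 90 / 100000) / n := div_le_div_of_nonneg_right sT hn.le
      _ = mT + 90 / 100000 := by field_simp
      _ ≤ _ := by linarith
  · have e : ∑ i, β / (√a * √(n : ℝ)) * y i * (√2 * β / √(n : ℝ) * tanh (h i)) * fw a (h i) =
        β / √a * (√2 * β) * ((∑ i, y i * tanh (h i) * fw a (h i)) / n) := by
      rw [Finset.sum_div, Finset.mul_sum]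
      refine Finset.sum_congr rfl fun i _ => ?_
      conv_rhs => rw [← hsn2]
      field_simp
    rw [e, abs_mul, abs_of_nonneg (by positivity : 0 ≤ β / √a * (√2 * β)), abs_div, abs_of_pos hn]
    have h2 : √2 * β ≤ 1 := by
      have : √2 ≤ 3 / 2 := sqrt_le_iff.2 ⟨by norm_num, by norm_num⟩
      linarith [mul_le_mul this hβ hβ0 (by norm_num : (0:ℝ) ≤ 3 / 2)]
    have h3 : |∑ i, y i * tanh (h i) * fw a (h i)| / n ≤ 30 / 100000 := by
      rw [div_le_iff₀ hn]; linarith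
    refine (mul_le_mul (mul_le_mul hba h2 (by positivity) (by norm_num)) h3 (by positivity)
      (by norm_num)).trans ?_
    norm_num
  · have e : ∑ i, β / (√a * √(n : ℝ)) * y i * ((β + r i) / √(n : ℝ)) * fw a (h i) =
        β / √a * ((∑ i, y i * (β + r i) * fw a (h i)) / n) := by
      rw [Finset.sum_div, Finset.mul_sum]
      refine Finset.sum_congr rfl fun i _ => ?_
      conv_rhs => rw [← hsn2]
      field_simp
    rw [e, abs_mul, abs_of_nonneg (by positivity : 0 ≤ β / √a), abs_div, abs_of_pos hn]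
    have h3 : |∑ i, y i * (β + r i) * fw a (h i)| / n ≤ 50 / 100000 := by
      rw [div_le_iff₀ hn]; linarith
    refine (mul_le_mul hba h3 (by positivity) (by norm_num)).trans ?_
    norm_num

theorem diag_le {β : ℝ} {r : Fin n → ℝ} (hβ0 : 0 ≤ β) (hβ : β ≤ 3 / 5)
    (hn : (10 : ℝ) ^ 10 ≤ n) (hr2 : ∑ i, r i ^ 2 ≤ 24 * n) (u : Fin n → ℝ) :
    -(2 * β / n * ∑ i, r i * u i ^ 2) ≤ 1 / 10000 * ∑ i, u i ^ 2 := by
  have hn0 : (0 : ℝ) < n := lt_of_lt_of_le (by norm_num) hn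
  rw [Finset.mul_sum, ← Finset.sum_neg_distrib, Finset.mul_sum]
  refine Finset.sum_le_sum fun i _ => ?_
  rw [← mul_assoc, ← neg_mul]
  refine mul_le_mul_of_nonneg_right ((neg_le_abs _).trans ?_) (sq_nonneg _)
  refine abs_le_of_sq_le_sq ?_ (by norm_num)
  have hri : r i ^ 2 ≤ 24 * n :=
    (Finset.single_le_sum (fun j _ => sq_nonneg (r j)) (mem_univ i)).trans hr2
  have e : (2 * β / (n : ℝ) * r i) ^ 2 = 4 * β ^ 2 * r i ^ 2 / (n : ℝ) ^ 2 := by ring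
  rw [e, div_le_iff₀ (by positivity)]
  have h1 := mul_le_mul (pow_le_pow_left₀ hβ0 hβ 2) hri (sq_nonneg _) (by norm_num)
  have h2 := mul_le_mul_of_nonneg_right hn hn0.le
  norm_num at h1 h2 ⊢
  linarith [sq (n : ℝ)]

/-- The inequality closing the criterion. -/
theorem rest_le {β σ a : ℝ} {r z y h u w : Fin n → ℝ} (hn : (0 : ℝ) < n) (ha : 0 < a)
    (hh : ∀ i, rfield β σ r z i + w i = h i)
    (hform : (β / (√a * √(n : ℝ)) * ∑ i, y i * u i) ^ 2 +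
        2 * β ^ 2 / n * (∑ i, tanh (h i) * u i) ^ 2 +
        (β * (∑ i, u i) + ∑ i, r i * u i) ^ 2 / n ≤
      (1 - 1 / 10000) * ∑ i, u i ^ 2 * cosh (h i) ^ 2 - (a + 1 / 10000) * ∑ i, u i ^ 2)
    (hdiag : -(2 * β / n * ∑ i, r i * u i ^ 2) ≤ 1 / 10000 * ∑ i, u i ^ 2) :
    β / √(n : ℝ) * (2 * √(∑ i, u i ^ 2) * ∑ i, y i * u i) + rest β σ r z u w ≤ 0 := by
  simp only [rest, hh]
  have hU : 0 ≤ ∑ i, u i ^ 2 := Finset.sum_nonneg fun i _ => sq_nonneg _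
  generalize hUe : ∑ i, u i ^ 2 = U at *
  generalize ∑ i, y i * u i = Y at *
  generalize ∑ i, tanh (h i) * u i = T at *
  generalize ∑ i, u i = S at *
  generalize ∑ i, r i * u i = R at *
  generalize ∑ i, r i * u i ^ 2 = D at *
  generalize ∑ i, u i ^ 2 * cosh (h i) ^ 2 = C at *
  have hsn : 0 < √(n : ℝ) := sqrt_pos.2 hn
  have hsa : 0 < √a := sqrt_pos.2 ha
  have amgm : β / √(n : ℝ) * (2 * √U * Y) ≤ a * U + (β / (√a * √(n : ℝ)) * Y) ^ 2 := by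
    have h0 := sq_nonneg (√a * √U - β / (√a * √(n : ℝ)) * Y)
    have e : √a * √U * (β / (√a * √(n : ℝ)) * Y) = β / √(n : ℝ) * (√U * Y) := by field_simp
    rw [sub_sq, mul_pow, sq_sqrt ha.le, sq_sqrt hU] at h0
    linarith [e]
  have hsq : 2 * β / n * (R * S) + β ^ 2 / n * S ^ 2 ≤ (β * S + R) ^ 2 / n := by
    rw [le_div_iff₀ hn]
    have e : (2 * β / (n : ℝ) * (R * S) + β ^ 2 / n * S ^ 2) * n =
        2 * β * (R * S) + β ^ 2 * S ^ 2 := by field_simp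
    rw [e]
    linarith [sq_nonneg R]
  have hneg : 0 ≤ β ^ 2 / n * U := by positivity
  linarith

theorem no_side {β σ a mA mT K ρ ε e' : ℝ} {ζ z y : Fin n → ℝ}
    (hβ0 : 1 / 2 ≤ β) (hβ : β ≤ 3 / 5) (ha3 : 1 / 3 ≤ a) (ha : a ≤ 1 / 2)
    (hA : β ^ 2 / a * mA ≤ 1001 / 1000 * (99 / 100)) (hT : mT ≤ 1001 / 1000 * (99 / 100))
    (hK : 1 ≤ K) (hρ0 : 0 < ρ) (hKρ : K ^ 2 * ρ ≤ 1 / 100000) (hε : ε ≤ ρ ^ 2 / 64)
    (he0 : 0 < e') (he' : e' ≤ ρ / 32) (hn : (10 : ℝ) ^ 10 ≤ n) (hnρ : 1000 ≤ ρ * ((n : ℝ) - 2))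
    (hty : Typical (1 / 100000) e' K β σ a mA mT ζ z y) :
    ¬ SideFails β σ ε (hrep ζ) z y := by
  rintro ⟨u, w, hw, hpos⟩
  have hρ1 : ρ ≤ 1 / 100000 := (le_mul_of_one_le_left hρ0.le (one_le_pow₀ hK)).trans hKρ
  have hn0 : (0 : ℝ) < n := lt_of_lt_of_le (by norm_num) hn
  have hn3 : (3 : ℝ) ≤ n := le_trans (by norm_num) hn
  have hn2 : (0 : ℝ) < (n : ℝ) - 2 := by linarith
  obtain ⟨hη, hsr, hr2⟩ :=
    hrep_close (by exact_mod_cast hn3) ζ hty.sq_ζ hty.sum_ζ he0.le (by linarith)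
  have hinv : 1 / ((n : ℝ) - 2) ^ 2 ≤ ρ ^ 2 / 1000000 := by
    rw [div_le_iff₀ (by positivity)]
    have := pow_le_pow_left₀ (by norm_num : (0:ℝ) ≤ 1000) hnρ 2
    linarith [mul_pow ρ ((n : ℝ) - 2) 2]
  have hinvn : 1 / (n : ℝ) ^ 2 ≤ ρ ^ 2 / 1000000 :=
    (one_div_le_one_div_of_le (by positivity) (pow_le_pow_left₀ hn2.le (by linarith) 2)).trans hinv
  have he2 : e' ^ 2 ≤ ρ ^ 2 / 1024 := by
    have := pow_le_pow_left₀ he0.le he' 2
    linarith [div_pow ρ 32 2]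
  have hη2 : ∑ i, (hrep ζ i - ζ i) ^ 2 ≤ ρ ^ 2 / 100 * n := by
    refine hη.trans (mul_le_mul_of_nonneg_right ?_ hn0.le)
    have e : 24 / ((n : ℝ) - 2) ^ 2 = 24 * (1 / ((n : ℝ) - 2) ^ 2) := by ring
    rw [e]; linarith [sq_nonneg ρ]
  have hη3 : ∑ i, (hrep ζ i - ζ i) ^ 2 ≤ (1 / 100000) ^ 2 * n := by
    refine hη2.trans (mul_le_mul_of_nonneg_right ?_ hn0.le)
    linarith [pow_le_pow_left₀ hρ0.le hρ1 2, sq_nonneg ρ]
  have hd := field_perturb (β := β) (σ := σ) (z := z) (by linarith) (by linarith) hn0 hw hε he2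
    hinvn hη2 hsr hr2
  obtain ⟨sA, sT, sC, sD⟩ := averages (h := fun i => rfield β σ (hrep ζ) z i + w i) (a := a)
    (by linarith) (by linarith) (by linarith) ha hK hρ0.le hKρ hd hη3 hty
  have hform := form_le (by linarith) hβ ha3 ha hn0 hA hT sA sT sC sD u
  exact absurd (rest_le (σ := σ) (z := z) (w := w) hn0 (by linarith) (fun i => rfl) hform
    (diag_le (by linarith) hβ hn hr2 u)) (not_le.2 hpos)

end Vale.Agent.P150.Beyond.Planted
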