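import Vale.Agent.P150.Beyond.Compare
import Vale.Agent.P150.Beyond.Planted.Typ
import Vale.Agent.P150.Fast.Coupling

/-!
# P150 beyond one half: the criterion at planted fields

The couplings are split into the part spanned by the row sums, which moves the fields, and an
independent rest; the rest is symmetrised to a full copy and compared with a linear process.
-/

open MeasureTheory ProbabilityTheory Real Finset
open Vale.Agent.P150.Fast
open scoped ENNReal

namespace Vale.Agent.P150.Beyond.Planted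

variable {n : ℕ}

/-- The criterion with couplings `g` in the quadratic form and row sums `r` in the fields. -/
def QFails (β σ ε : ℝ) (g : Edge n → ℝ) (r z : Fin n → ℝ) : Prop :=
  ∃ u w : Fin n → ℝ, ∑ i, w i ^ 2 ≤ ε * n ∧ 0 < β / √(n : ℝ) * quad g u + rest β σ r z u w

theorem quad_add (g g' : Edge n → ℝ) (u : Fin n → ℝ) : quad (g + g') u = quad g u + quad g' u := by
  simp only [quad, Pi.add_apply, add_mul, Finset.sum_add_distrib]

theorem quad_proj (g : Edge n → ℝ) (u : Fin n → ℝ) :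
    quad (proj g) u = 2 / √(n : ℝ) *
      ((∑ i, hrow g i * u i) * (∑ i, u i) - ∑ i, hrow g i * u i ^ 2) := by
  have h := sum_edge (fun i j => (hrow g i + hrow g j) / √(n : ℝ) * (u i * u j)) fun i j => by ring
  have e1 : ∑ i, ∑ j, (hrow g i + hrow g j) / √(n : ℝ) * (u i * u j) =
      2 / √(n : ℝ) * ((∑ i, hrow g i * u i) * ∑ i, u i) := by
    have : ∀ i j, (hrow g i + hrow g j) / √(n : ℝ) * (u i * u j) =
        1 / √(n : ℝ) * (hrow g i * u i * u j + u i * (hrow g j * u j)) := fun i j => by ring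
    simp only [this, ← Finset.mul_sum, Finset.sum_add_distrib, ← Finset.sum_mul]
    ring
  have e2 : ∑ i, (hrow g i + hrow g i) / √(n : ℝ) * (u i * u i) =
      2 / √(n : ℝ) * ∑ i, hrow g i * u i ^ 2 := by
    rw [Finset.mul_sum]; exact Finset.sum_congr rfl fun i _ => by ring
  have e3 : quad (proj g) u =
      2 * ∑ e : Edge n, (hrow g e.1.1 + hrow g e.1.2) / √(n : ℝ) * (u e.1.1 * u e.1.2) := by
    rw [quad, Finset.mul_sum]; exact Finset.sum_congr rfl fun e _ => by rw [proj]; ring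
  rw [e3, h, e1, e2]; ring

theorem plant_row (hn : 3 ≤ n) (β σ : ℝ) (g : Edge n → ℝ) (z : Fin n → ℝ) (i : Fin n) :
    plantField n β σ (g, z) i = rfield β σ (hrow g) z i := by
  have hn0 : (0 : ℝ) < n := by exact_mod_cast (by omega : 0 < n)
  have hs2 := sq_sqrt hn0.le
  have hsn : √(n : ℝ) ≠ 0 := (sqrt_pos.2 hn0).ne'
  have e : ∑ j, plantMat n β g i j = 1 / √(n : ℝ) * rowSum g i + β * ((n : ℝ) - 1) / n := by
    simp only [plantMat, skMat_eq, Finset.sum_add_distrib, ← Finset.mul_sum, rowSum]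
    rw [Finset.sum_ite, Finset.sum_const_zero, zero_add, Finset.sum_const, nsmul_eq_mul,
      show (univ.filter fun j => ¬i = j) = univ.erase i by ext j; simp [eq_comm],
      Finset.card_erase_of_mem (mem_univ i), Finset.card_univ, Fintype.card_fin,
      Nat.cast_sub (by omega : 1 ≤ n)]
    push_cast
    ring
  simp only [plantField, rfield, e, rowSum_eq_hrow hn]
  rw [one_div_mul_eq_div, div_div, ← sq, hs2]

theorem plant_quad (β : ℝ) (g : Edge n → ℝ) (u : Fin n → ℝ) :
    ∑ i, ∑ j, plantMat n β g i j * u i * u j =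
      1 / √(n : ℝ) * quad g u + β / n * ((∑ i, u i) ^ 2 - ∑ i, u i ^ 2) := by
  simp only [plantMat, skMat_eq, add_mul, Finset.sum_add_distrib, mul_assoc]
  rw [← quad_eq]
  simp only [← Finset.mul_sum, mul_assoc]
  congr 1
  have e : ∀ i j : Fin n, (if i = j then (0 : ℝ) else β / n) * (u i * u j) =
      β / n * (u i * u j) - if i = j then β / n * (u i * u j) else 0 := fun i j => by
    split_ifs <;> ring
  simp only [e, Finset.sum_sub_distrib, Finset.sum_ite_eq, mem_univ, if_true, ← Finset.mul_sum]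
  rw [← Finset.sum_mul]
  simp only [← sq]
  ring

/-- A failure for some temperature below `β` is a failure of the reduced criterion. -/
theorem reduce (hn : 3 ≤ n) {β σ θ ε : ℝ} (hβ : β ≤ 3 / 5) (hθ0 : 0 ≤ θ) (hθ : θ ≤ β)
    {g : Edge n → ℝ} {z w : Fin n → ℝ} (hw : ∑ i, w i ^ 2 ≤ ε * n)
    (h : CritFails θ (1 / 10000) (plantMat n β g) (fun i => plantField n β σ (g, z) i + w i)) :
    QFails β σ ε (g - proj g) (hrow g) z := by
  obtain ⟨u, hu⟩ := h
  simp only [plant_row hn] at hu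
  have hn0 : (0 : ℝ) < n := by exact_mod_cast (by omega : 0 < n)
  set T := ∑ i, tanh (rfield β σ (hrow g) z i + w i) * u i with hT
  set C := ∑ i, u i ^ 2 * cosh (rfield β σ (hrow g) z i + w i) ^ 2 with hC
  have hθ2 : θ ^ 2 ≤ β ^ 2 := pow_le_pow_left₀ hθ0 hθ 2
  have hT2 : 2 * θ ^ 2 / n * T ^ 2 ≤ 2 * β ^ 2 / n * T ^ 2 := by gcongr
  have hM : 0 ≤ ∑ i, ∑ j, plantMat n β g i j * u i * u j := by
    by_contra hneg
    have h1 : θ * (∑ i, ∑ j, plantMat n β g i j * u i * u j) ≤ 0 :=
      mul_nonpos_of_nonneg_of_nonpos hθ0 (not_le.1 hneg).le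
    have h2 : T ^ 2 ≤ n * ∑ i, u i ^ 2 := by
      refine (sum_mul_sq_le_sq_mul_sq _ _ _).trans (mul_le_mul_of_nonneg_right ?_
        (Finset.sum_nonneg fun i _ => sq_nonneg _))
      have := Finset.sum_le_card_nsmul univ
        (fun i => tanh (rfield β σ (hrow g) z i + w i) ^ 2) 1 fun i _ =>
          (sq_le_one_iff_abs_le_one _).2 (abs_tanh_lt_one _).le
      simpa using this
    have h3 : 2 * β ^ 2 / n * T ^ 2 ≤ 18 / 25 * ∑ i, u i ^ 2 := by
      refine (mul_le_mul_of_nonneg_left h2 (by positivity)).trans ?_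
      rw [show 2 * β ^ 2 / (n : ℝ) * (n * ∑ i, u i ^ 2) = 2 * β ^ 2 * ∑ i, u i ^ 2 by field_simp]
      refine mul_le_mul_of_nonneg_right ?_ (Finset.sum_nonneg fun i _ => sq_nonneg _)
      linarith [pow_le_pow_left₀ (hθ0.trans hθ) hβ 2]
    have h4 : ∑ i, u i ^ 2 ≤ C := Finset.sum_le_sum fun i _ =>
      le_mul_of_one_le_right (sq_nonneg _) (one_le_pow₀ (one_le_cosh _))
    linarith [Finset.sum_nonneg fun i (_ : i ∈ (univ : Finset (Fin n))) => sq_nonneg (u i)]
  refine ⟨u, w, hw, ?_⟩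
  have h1 := mul_le_mul_of_nonneg_right hθ hM
  rw [plant_quad] at h1 hu
  have e : quad g u = quad (g - proj g) u + quad (proj g) u := by
    rw [← quad_add, sub_add_cancel]
  have hs2 : √(n : ℝ) * √(n : ℝ) = n := mul_self_sqrt hn0.le
  have e2 : β * (1 / √(n : ℝ) * quad (proj g) u) =
      2 * β / n * ((∑ i, hrow g i * u i) * (∑ i, u i) - ∑ i, hrow g i * u i ^ 2) := by
    rw [quad_proj]
    rw [show ∀ X : ℝ, β * (1 / √(n : ℝ) * (2 / √(n : ℝ) * X)) = 2 * β / (√(n : ℝ) * √(n : ℝ)) * X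
      from fun X => by ring, hs2]
  simp only [rest, ← hT, ← hC]
  rw [e] at h1 hu
  have e3 : β * (1 / √(n : ℝ) * (quad (g - proj g) u + quad (proj g) u) +
        β / n * ((∑ i, u i) ^ 2 - ∑ i, u i ^ 2)) =
      β / √(n : ℝ) * quad (g - proj g) u + (2 * β / n *
        ((∑ i, hrow g i * u i) * (∑ i, u i) - ∑ i, hrow g i * u i ^ 2) +
          β ^ 2 / n * ((∑ i, u i) ^ 2 - ∑ i, u i ^ 2)) := by
    rw [← e2]; ring
  linarith

theorem isOpen_qfails (β σ ε : ℝ) :
    IsOpen {q : (Edge n → ℝ) × ((Fin n → ℝ) × (Fin n → ℝ)) |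
      QFails β σ ε q.1 q.2.1 q.2.2} := by
  have ht : Continuous tanh := by
    rw [funext tanh_eq_sinh_div_cosh]
    exact continuous_sinh.div continuous_cosh fun x => (cosh_pos x).ne'
  simp only [QFails, Set.ofPred_exists]
  refine isOpen_iUnion fun u => isOpen_iUnion fun w => ?_
  rw [Set.ofPred_and]
  refine isOpen_const.inter (isOpen_lt continuous_const ?_)
  unfold quad rest rfield
  fun_prop

theorem isOpen_side (β σ ε : ℝ) :
    IsOpen {q : ((Fin n → ℝ) × (Fin n → ℝ)) × (Fin n → ℝ) |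
      SideFails β σ ε q.1.1 q.1.2 q.2} := by
  have ht : Continuous tanh := by
    rw [funext tanh_eq_sinh_div_cosh]
    exact continuous_sinh.div continuous_cosh fun x => (cosh_pos x).ne'
  simp only [SideFails, Set.ofPred_exists]
  refine isOpen_iUnion fun u => isOpen_iUnion fun w => ?_
  rw [Set.ofPred_and]
  refine isOpen_const.inter (isOpen_lt continuous_const ?_)
  unfold rest rfield
  fun_prop

theorem measurePreserving_neg_edge :
    MeasurePreserving (fun g : Edge n → ℝ => fun e => -g e) (stdPi (Edge n)) (stdPi (Edge n)) :=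
  measurePreserving_pi (fun _ => std) (fun _ => std) fun _ =>
    ⟨measurable_neg, by rw [std, gaussianReal_map_neg, neg_zero]⟩

/-- Completing the rest of the couplings to a full copy costs a factor two. -/
theorem symmetrise (hn : 3 ≤ n) (β σ ε : ℝ) (r z : Fin n → ℝ) :
    stdPi (Edge n) {g | QFails β σ ε (g - proj g) r z} ≤
      2 * stdPi (Edge n) {g | QFails β σ ε g r z} := by
  set μ := stdPi (Edge n)
  set A := {g : Edge n → ℝ | QFails β σ ε g r z}
  have hAm : MeasurableSet A :=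
    ((isOpen_qfails β σ ε).preimage (show Continuous fun g : Edge n → ℝ => (g, r, z) by fun_prop)).measurableSet
  have hp := continuous_proj (n := n)
  have hP : MeasurePreserving (fun p : (Edge n → ℝ) × (Edge n → ℝ) => p.1 - proj p.1 + proj p.2)
      (μ.prod μ) μ := ⟨(show Continuous _ by fun_prop).measurable, map_split hn⟩
  have hN := hP.comp ((MeasurePreserving.id μ).prod measurePreserving_neg_edge)
  have hm : MeasurableSet {g : Edge n → ℝ | QFails β σ ε (g - proj g) r z} :=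
    ((isOpen_qfails β σ ε).preimage
      (show Continuous fun g : Edge n → ℝ => (g - proj g, r, z) by fun_prop)).measurableSet
  rw [← (measurePreserving_fst (μ := μ) (ν := μ)).measure_preimage hm.nullMeasurableSet, two_mul]
  refine le_trans (measure_mono ?_) ((measure_union_le _ _).trans (add_le_add
    (hP.measure_preimage hAm.nullMeasurableSet).le (hN.measure_preimage hAm.nullMeasurableSet).le))
  rintro p ⟨u, w, hw, hpos⟩
  have hpn : proj (fun e => -p.2 e) = -proj p.2 := by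
    funext e
    simp only [proj, show hrow (fun e => -p.2 e) = -hrow p.2 from hrow_neg p.2, Pi.neg_apply]
    ring
  have h0 : quad (-proj p.2) u = -quad (proj p.2) u := by
    simp only [quad, Pi.neg_apply, neg_mul, Finset.sum_neg_distrib]
  rcases le_total 0 (β / √(n : ℝ) * quad (proj p.2) u) with h | h
  · refine Or.inl ⟨u, w, hw, ?_⟩
    rw [quad_add, mul_add]; linarith
  · refine Or.inr ⟨u, w, hw, ?_⟩
    simp only [Function.comp_apply, Prod.map_fst, Prod.map_snd, id_eq, hpn, quad_add, h0, mul_add]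
    linarith

/-- The comparison with a linear process. -/
theorem compare {β σ ε : ℝ} (hn : 3 ≤ n) (hβ : 0 < β) (r z : Fin n → ℝ) :
    stdPi (Edge n) {g | QFails β σ ε g r z} ≤
      2 * stdPi (Fin n) {y | SideFails β σ ε r z y} := by
  have hc : 0 < β / √(n : ℝ) :=
    div_pos hβ (sqrt_pos.2 (by exact_mod_cast (by omega : 0 < n)))
  have h := offset_extend (stdPi (Edge n)) (fun g => quad g)
    (fun g => by unfold quad; fun_prop) (fun _ u b t => quad_offset_finite u b t)
    (fun k : {p : (Fin n → ℝ) × (Fin n → ℝ) // ∑ i, p.2 i ^ 2 ≤ ε * n} => k.1.1)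
    (fun k => rest β σ r z k.1.1 k.1.2 / (β / √(n : ℝ))) 0
  refine (measure_mono ?_).trans (h.trans (mul_le_mul_right (measure_mono ?_) 2))
  · rintro g ⟨u, w, hw, hpos⟩
    refine ⟨⟨(u, w), hw⟩, ?_⟩
    rw [← div_pos_iff_of_pos_right hc, add_div, mul_div_cancel_left₀ _ hc.ne'] at hpos
    exact hpos
  · rintro y ⟨⟨⟨u, w⟩, hw⟩, hpos⟩
    refine ⟨u, w, hw, ?_⟩
    have := mul_pos hc hpos
    rw [mul_add, mul_div_cancel₀ _ hc.ne'] at this
    exact this

theorem bad_le (hn : 3 ≤ n) {β σ θ ε : ℝ} (hβ0 : 0 < β) (hβ : β ≤ 3 / 5) (hθ0 : 0 ≤ θ)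
    (hθ : θ ≤ β) :
    ((disorder n).prod (stdPi (Fin n)))
        {p | ∃ w : Fin n → ℝ, ∑ i, w i ^ 2 ≤ ε * n ∧
          CritFails θ (1 / 10000) (plantMat n β p.1) (fun i => plantField n β σ p i + w i)} ≤
      4 * (((stdPi (Fin n)).prod (stdPi (Fin n))).prod (stdPi (Fin n)))
        {p | SideFails β σ ε (hrep p.1.1) p.1.2 p.2} := by
  rw [show disorder n = stdPi (Edge n) from rfl]
  set μ := stdPi (Edge n)
  set ν := stdPi (Fin n)
  have hp := continuous_proj (n := n)
  have hr := continuous_hrow (n := n)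
  set S1 := {p : (Edge n → ℝ) × (Fin n → ℝ) | QFails β σ ε (p.1 - proj p.1) (hrow p.1) p.2}
  have hS1 : MeasurableSet S1 := ((isOpen_qfails β σ ε).preimage
    (show Continuous fun p : (Edge n → ℝ) × (Fin n → ℝ) => (p.1 - proj p.1, hrow p.1, p.2)
      by fun_prop)).measurableSet
  refine (measure_mono (t := S1) ?_).trans ?_
  · rintro p ⟨w, hw, h⟩
    exact reduce hn hβ hθ0 hθ hw h
  have hP : MeasurePreserving (fun p : (Edge n → ℝ) × (Edge n → ℝ) => p.1 - proj p.1 + proj p.2)
      (μ.prod μ) μ := ⟨(show Continuous _ by fun_prop).measurable, map_split hn⟩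
  set T := {q : (Edge n → ℝ) × ((Edge n → ℝ) × (Fin n → ℝ)) |
    QFails β σ ε (q.1 - proj q.1) (hrow q.2.1) q.2.2}
  have hTm : MeasurableSet T := ((isOpen_qfails β σ ε).preimage
    (show Continuous fun q : (Edge n → ℝ) × ((Edge n → ℝ) × (Fin n → ℝ)) =>
      (q.1 - proj q.1, hrow q.2.1, q.2.2) by fun_prop)).measurableSet
  have e1 : (fun q : ((Edge n → ℝ) × (Edge n → ℝ)) × (Fin n → ℝ) =>
      (q.1.1 - proj q.1.1 + proj q.1.2, q.2)) ⁻¹' S1 = MeasurableEquiv.prodAssoc ⁻¹' T := by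
    ext ⟨⟨g1, g2⟩, z⟩
    have hh := hrow_split hn g1 g2
    have hpp : proj (g1 - proj g1 + proj g2) = proj g2 := by
      funext e; simp only [proj, hh]
    simp [S1, T, hh, hpp, MeasurableEquiv.prodAssoc]
  rw [← (hP.prod (MeasurePreserving.id ν)).measure_preimage hS1.nullMeasurableSet]
  rw [show Prod.map (fun p : (Edge n → ℝ) × (Edge n → ℝ) => p.1 - proj p.1 + proj p.2) id ⁻¹' S1 =
    MeasurableEquiv.prodAssoc ⁻¹' T from e1,
    (measurePreserving_prodAssoc μ μ ν).measure_preimage hTm.nullMeasurableSet,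
    Measure.prod_apply_symm hTm]
  set U := {q : ((Fin n → ℝ) × (Fin n → ℝ)) × (Fin n → ℝ) | SideFails β σ ε q.1.1 q.1.2 q.2}
  have hUm : MeasurableSet U := (isOpen_side β σ ε).measurableSet
  set V := (Prod.map (Prod.map (hrow (n := n)) id) id) ⁻¹' U
  have hVm : MeasurableSet V := ((hr.measurable.prodMap measurable_id).prodMap measurable_id) hUm
  refine le_trans (lintegral_mono (g := fun q => 4 * ν (Prod.mk q ⁻¹' V)) fun q => ?_) ?_
  · refine le_trans (symmetrise hn β σ ε (hrow q.1) q.2) ?_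
    refine le_trans (mul_le_mul_right (compare hn hβ0 (hrow q.1) q.2) 2) ?_
    rw [← mul_assoc]
    norm_num
    rfl
  rw [lintegral_const_mul _ (measurable_measure_prodMk_left hVm), ← Measure.prod_apply hVm]
  refine mul_le_mul_right (le_of_eq ?_) 4
  have hrep' : Measurable (hrep (n := n)) := by
    unfold hrep; fun_prop
  have a1 : ((μ.prod ν).prod ν).map (Prod.map (Prod.map hrow id) id) =
      ((ν.prod ν).prod ν).map (Prod.map (Prod.map hrep id) id) := by
    rw [← Measure.map_prod_map _ _ (hr.measurable.prodMap measurable_id) measurable_id,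
      ← Measure.map_prod_map _ _ hr.measurable measurable_id,
      ← Measure.map_prod_map _ _ (hrep'.prodMap measurable_id) measurable_id,
      ← Measure.map_prod_map _ _ hrep' measurable_id, map_hrow hn]
  have a2 := congrArg (fun m : Measure _ => m U) a1
  simp only [Measure.map_apply ((hr.measurable.prodMap measurable_id).prodMap measurable_id) hUm,
    Measure.map_apply ((hrep'.prodMap measurable_id).prodMap measurable_id) hUm] at a2
  exact a2

theorem plantedBound : PlantedBound := by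
  intro β hβ0 hβ
  have hv1 : 1 / 4 ≤ β ^ 2 := by linarith [pow_le_pow_left₀ (by norm_num : (0:ℝ) ≤ 1 / 2) hβ0 2]
  have hv2 : β ^ 2 ≤ 9 / 25 := by linarith [pow_le_pow_left₀ (by linarith : (0:ℝ) ≤ β) hβ 2]
  obtain ⟨a, c0, al, k, c1, k1, hE, hcert⟩ := cert hv1 hv2
  have ha3 := hE.1.1
  have ha := hE.1.2
  obtain ⟨K, hK, htyp⟩ := typical_prob (show (0 : ℝ) < 1 / 100000 by norm_num)
  set ρ := 1 / 100000 / K ^ 2 with hρdef
  have hK2 : 0 < K ^ 2 := by positivity
  have hρ : 0 < ρ := by positivity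
  have hKρ : K ^ 2 * ρ ≤ 1 / 100000 := by rw [hρdef, mul_div_cancel₀ _ hK2.ne']
  obtain ⟨c, hc, hprob⟩ := htyp (ρ / 32) (by positivity)
  refine ⟨1 / 10000, by norm_num, ρ ^ 2 / 64, by positivity, c / 2, by positivity,
    ⌈max ((10 : ℝ) ^ 10) (max (1000 / ρ + 2) (94 / c))⌉₊, fun n hn θ hθ0 hθ σ hσ => ?_⟩
  have hn' := Nat.ceil_le.1 hn
  simp only [max_le_iff] at hn'
  obtain ⟨hn1, hn2, hn3⟩ := hn'
  have hnn : 3 ≤ n := by
    have : (3 : ℝ) ≤ n := le_trans (by norm_num) hn1
    exact_mod_cast this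
  have hnρ : 1000 ≤ ρ * ((n : ℝ) - 2) := by
    rw [mul_comm, ← div_le_iff₀ hρ]; linarith
  set g := β ^ 2 + σ with hg
  set mA := 1001 / 1000 * (exp (-(g / 2)) * (c0 + al * gfac k g))
  set mT := 1001 / 1000 * certT c0 al k c1 k1 (β ^ 2) g
  obtain ⟨hcA, hcT⟩ := hcert g (le_add_of_nonneg_right hσ)
  obtain ⟨hmA, hmT⟩ := planted_means (β := β) (by linarith) hσ ha hE
  have hA : β ^ 2 / a * mA ≤ 1001 / 1000 * (99 / 100) := by
    rw [show β ^ 2 / a * mA = 1001 / 1000 * (certA c0 al k (β ^ 2) g / a) by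
      simp only [mA, certA]; ring]
    refine mul_le_mul_of_nonneg_left ?_ (by norm_num)
    rw [div_le_iff₀ (by linarith)]
    exact hcA
  have hT : mT ≤ 1001 / 1000 * (99 / 100) := mul_le_mul_of_nonneg_left hcT (by norm_num)
  have hP := hprob n β σ a mA mT (by linarith) (by linarith) ha hmA hmT
  have hb := bad_le hnn (σ := σ) (ε := ρ ^ 2 / 64) (by linarith : 0 < β) hβ hθ0 hθ
  have hsub : {p : ((Fin n → ℝ) × (Fin n → ℝ)) × (Fin n → ℝ) |
      SideFails β σ (ρ ^ 2 / 64) (hrep p.1.1) p.1.2 p.2} ⊆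
      {p | ¬ Typical (1 / 100000) (ρ / 32) K β σ a mA mT p.1.1 p.1.2 p.2} := fun p hp hty =>
    no_side hβ0 hβ ha3 ha hA hT hK hρ hKρ le_rfl (by positivity) le_rfl hn1 hnρ hty hp
  have h4 := hb.trans (mul_le_mul_right (measure_mono hsub) 4)
  have h5 := ENNReal.toReal_mono (ENNReal.mul_ne_top ENNReal.ofNat_ne_top (measure_ne_top _ _)) h4
  rw [ENNReal.toReal_mul, ENNReal.toReal_ofNat] at h5
  refine h5.trans ((mul_le_mul_of_nonneg_left hP (by norm_num)).trans ?_)
  have hcn : 94 ≤ n * c := (div_le_iff₀ hc).1 hn3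
  have h48 : 48 ≤ exp (c / 2 * n) := by linarith [add_one_le_exp (c / 2 * (n : ℝ))]
  have e : exp (-(c * n)) = exp (-(c / 2) * n) * exp (-(c / 2 * n)) := by
    rw [← exp_add]; congr 1; ring
  rw [e, exp_neg (c / 2 * n)]
  have hpos := exp_pos (-(c / 2) * (n : ℝ))
  rw [show (4 : ℝ) * (12 * (exp (-(c / 2) * n) * (exp (c / 2 * n))⁻¹)) =
    exp (-(c / 2) * n) * (48 / exp (c / 2 * n)) by ring]
  refine mul_le_of_le_one_right hpos.le ?_
  rw [div_le_one (exp_pos _)]
  exact h48

end Vale.Agent.P150.Beyond.Planted
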