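import Vale.Agent.P150.Beyond.Planted.Env

/-!
# P150 beyond one half: the one-dimensional certificate

With `v = beta^2` and `g = v + sigma` the variance of the planted field, both diagonal entries of
the three-by-three comparison matrix are at most `99/100`, for every `v` in `[1/4, 9/25]` and
every `g >= v`.
-/

open Real

namespace Vale.Agent.P150.Beyond.Planted

/-- `1 / sqrt (1 + 2 k g)`. -/
noncomputable def gfac (k g : ℝ) : ℝ := 1 / √(1 + 2 * k * g)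

theorem gfac_sq {k g : ℝ} (hk : 0 ≤ k) (hg : 0 ≤ g) : gfac k g ^ 2 * (1 + 2 * k * g) = 1 := by
  have h : 0 < 1 + 2 * k * g := by positivity
  rw [gfac, div_pow, sq_sqrt h.le, one_pow, one_div, inv_mul_cancel₀ h.ne']

theorem gfac_pos {k g : ℝ} (hk : 0 ≤ k) (hg : 0 ≤ g) : 0 < gfac k g := by
  rw [gfac]; positivity

theorem gfac_le {k g X : ℝ} (hk : 0 ≤ k) (hg : 0 ≤ g) (hX : 0 ≤ X) (h : 1 ≤ X ^ 2 * (1 + 2 * k * g)) :
    gfac k g ≤ X := by
  rw [← abs_of_pos (gfac_pos hk hg), ← abs_of_nonneg hX]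
  refine sq_le_sq.1 (le_of_mul_le_mul_right (?_ : _ * (1 + 2 * k * g) ≤ _) (by positivity))
  rw [gfac_sq hk hg]; exact h

theorem le_gfac {k g X : ℝ} (hk : 0 ≤ k) (hg : 0 ≤ g) (hX : 0 ≤ X) (h : X ^ 2 * (1 + 2 * k * g) ≤ 1) :
    X ≤ gfac k g := by
  rw [← abs_of_pos (gfac_pos hk hg), ← abs_of_nonneg hX]
  refine sq_le_sq.1 (le_of_mul_le_mul_right (?_ : _ * (1 + 2 * k * g) ≤ _) (by positivity))
  rw [gfac_sq hk hg]; exact h

theorem gfac_anti {k g g' : ℝ} (hk : 0 ≤ k) (hg : 0 ≤ g) (h : g ≤ g') : gfac k g' ≤ gfac k g :=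
  gfac_le hk (hg.trans h) (gfac_pos hk hg).le
    ((gfac_sq hk hg).ge.trans (mul_le_mul_of_nonneg_left (by gcongr) (sq_nonneg _)))

theorem gfac_drop {k g g' : ℝ} (hk : 0 ≤ k) (hg : 0 ≤ g) (h : g ≤ g') :
    gfac k g - gfac k g' ≤ k * gfac k g ^ 3 * (g' - g) := by
  have hx := gfac_sq hk hg
  have hy := gfac_sq hk (hg.trans h)
  have hx0 := gfac_pos hk hg
  have hy0 := gfac_pos hk (hg.trans h)
  have hle := gfac_anti hk hg h
  generalize gfac k g = x at *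
  generalize gfac k g' = y at *
  have he : (x - y) * (x + y) = 2 * k * (g' - g) * (x ^ 2 * y ^ 2) := by
    linear_combination (-(x ^ 2)) * hy + y ^ 2 * hx
  refine le_of_mul_le_mul_right ?_ (add_pos hx0 hy0)
  rw [he]
  have h2 : 2 * y ^ 2 ≤ x * (x + y) := by nlinarith
  have := mul_le_mul_of_nonneg_left h2 (mul_nonneg (mul_nonneg hk (sub_nonneg.2 h)) (sq_nonneg x))
  nlinarith [this]

/-- The bound on the Gaussian diagonal entry, before dividing by `a`. -/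
noncomputable def certA (c0 al k v g : ℝ) : ℝ :=
  v * exp (-(g / 2)) * (c0 + al * gfac k g)

/-- The bound on the sum of the two deterministic diagonal entries. -/
noncomputable def certT (c0 al k c1 k1 v g : ℝ) : ℝ :=
  exp (-(g / 2)) * (c0 + al * gfac k g - 2 * k * v * al * gfac k g ^ 3 +
    2 * v * c1 * (1 - gfac k1 g))

theorem phi_le {c0 al k c1 k1 hi v d x x₀ y y₀ X X1 Y Y1 D : ℝ} (hal : 0 ≤ al) (hk : 0 ≤ k)
    (hc1 : 0 ≤ c1) (hk1 : 0 ≤ k1) (hv : 0 ≤ v) (hvh : v ≤ hi) (hd : 0 ≤ d) (hx : 0 ≤ x)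
    (hxx : x ≤ x₀) (hy : y ≤ 1) (hY1p : Y1 ≤ y₀) (hX1 : 0 ≤ X1) (hX1x : X1 ≤ x₀) (hxX : x₀ ≤ X)
    (hy0 : 0 ≤ y₀) (hyY : y₀ ≤ Y) (hD : 0 ≤ D) (hDX : 2 - 3 * X1 ^ 2 ≤ D)
    (hA : 2 * k * v * x₀ ^ 2 = 1 - x₀ ^ 2) (hdx : x₀ - x ≤ k * x₀ ^ 3 * d)
    (hdy : y₀ - y ≤ k1 * y₀ ^ 3 * d) :
    c0 + al * x - 2 * k * v * al * x ^ 3 + 2 * v * c1 * (1 - y) ≤
      (c0 + al * X ^ 3 + 2 * hi * c1 * (1 - Y1)) +
        (al * k * X ^ 3 * D + 2 * hi * c1 * k1 * Y ^ 3) * d := by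
  have hx0 : 0 ≤ x₀ := hx.trans hxx
  have htan : x - 2 * k * v * x ^ 3 ≤ x₀ ^ 3 + (2 - 3 * x₀ ^ 2) * (x₀ - x) := by
    have e : (2 - 3 * x₀ ^ 2) = 3 * (2 * k * v * x₀ ^ 2) - 1 := by rw [hA]; ring
    have e2 : x₀ ^ 3 = x₀ - 2 * k * v * x₀ ^ 3 := by linear_combination x₀ * hA
    rw [e, e2]
    have := mul_nonneg (mul_nonneg (mul_nonneg hk hv) (sq_nonneg (x - x₀)))
      (show 0 ≤ x + 2 * x₀ by linarith)
    linear_combination 2 * this
  have h2x : 2 - 3 * x₀ ^ 2 ≤ D := by linarith [pow_le_pow_left₀ hX1 hX1x 2]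
  have hB : (2 - 3 * x₀ ^ 2) * (x₀ - x) ≤ D * (k * X ^ 3 * d) :=
    (mul_le_mul_of_nonneg_right h2x (sub_nonneg.2 hxx)).trans
      (mul_le_mul_of_nonneg_left (hdx.trans (mul_le_mul_of_nonneg_right
        (mul_le_mul_of_nonneg_left (pow_le_pow_left₀ hx0 hxX 3) hk) hd)) hD)
  have p1 : al * (x - 2 * k * v * x ^ 3) ≤ al * (X ^ 3 + D * (k * X ^ 3 * d)) :=
    mul_le_mul_of_nonneg_left (by linarith [pow_le_pow_left₀ hx0 hxX 3]) hal
  have h4 : k1 * y₀ ^ 3 * d ≤ k1 * Y ^ 3 * d :=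
    mul_le_mul_of_nonneg_right (mul_le_mul_of_nonneg_left (pow_le_pow_left₀ hy0 hyY 3) hk1) hd
  have p2 : v * (1 - y) ≤ hi * ((1 - Y1) + k1 * Y ^ 3 * d) :=
    mul_le_mul hvh (by linarith) (sub_nonneg.2 hy) (hv.trans hvh)
  have p3 := mul_le_mul_of_nonneg_left p2 hc1
  linarith

theorem exp_low {lo v g : ℝ} (hlo : 0 ≤ lo) (h1 : lo ≤ v) (hg : v ≤ g) :
    (1 + lo / 2 + lo ^ 2 / 8) * (1 + (g - v) / 2) ≤ exp (g / 2) := by
  rw [show g / 2 = v / 2 + (g - v) / 2 by ring, exp_add]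
  refine mul_le_mul ?_ (by linarith [add_one_le_exp ((g - v) / 2)]) (by linarith) (exp_pos _).le
  refine le_trans ?_ (exp_le_exp.2 (show lo / 2 ≤ v / 2 by linarith))
  linarith [quadratic_le_exp_of_nonneg (show 0 ≤ lo / 2 by linarith)]

theorem cert_step {a c0 al k c1 k1 lo hi X X1 Y Y1 D v g : ℝ} (hc0 : 0 ≤ c0) (hal : 0 ≤ al)
    (hk : 0 ≤ k) (hc1 : 0 ≤ c1) (hk1 : 0 ≤ k1) (hlo : 0 ≤ lo) (hlo2 : lo ≤ 1)
    (hX : 0 ≤ X ∧ 1 ≤ X ^ 2 * (1 + 2 * k * lo)) (hX1 : 0 ≤ X1 ∧ X1 ^ 2 * (1 + 2 * k * hi) ≤ 1)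
    (hY : 0 ≤ Y ∧ 1 ≤ Y ^ 2 * (1 + 2 * k1 * lo)) (hY1 : 0 ≤ Y1 ∧ Y1 ^ 2 * (1 + 2 * k1 * hi) ≤ 1)
    (hD : 0 ≤ D ∧ 2 - 3 * X1 ^ 2 ≤ D) (hA : hi * expUp (lo / 2) * (c0 + al * X) ≤ 99 / 100 * a)
    (hT : c0 + al * X ^ 3 + 2 * hi * c1 * (1 - Y1) ≤ 99 / 100 * (1 + lo / 2 + lo ^ 2 / 8))
    (hL : al * k * X ^ 3 * D + 2 * hi * c1 * k1 * Y ^ 3 ≤ 99 / 100 * (1 + lo / 2 + lo ^ 2 / 8) / 2)
    (h1 : lo ≤ v) (h2 : v ≤ hi) (hg : v ≤ g) :
    certA c0 al k v g ≤ 99 / 100 * a ∧ certT c0 al k c1 k1 v g ≤ 99 / 100 := by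
  have hv : 0 ≤ v := hlo.trans h1
  have x0X : gfac k v ≤ X := (gfac_anti hk hlo h1).trans (gfac_le hk hlo hX.1 hX.2)
  have y0Y : gfac k1 v ≤ Y := (gfac_anti hk1 hlo h1).trans (gfac_le hk1 hlo hY.1 hY.2)
  have X1x0 : X1 ≤ gfac k v :=
    (le_gfac hk (hv.trans h2) hX1.1 hX1.2).trans (gfac_anti hk hv h2)
  have Y1y0 : Y1 ≤ gfac k1 v :=
    (le_gfac hk1 (hv.trans h2) hY1.1 hY1.2).trans (gfac_anti hk1 hv h2)
  have xx0 : gfac k g ≤ gfac k v := gfac_anti hk hv hg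
  have yy0 : gfac k1 g ≤ gfac k1 v := gfac_anti hk1 hv hg
  have hx := gfac_pos hk (hv.trans hg)
  have hx0 := gfac_pos hk hv
  have hy0 := gfac_pos hk1 hv
  constructor
  · refine le_trans ?_ hA
    refine mul_le_mul (mul_le_mul h2 (le_trans ?_ (exp_neg_bound (by linarith) (by linarith)).2)
      (exp_pos _).le (hv.trans h2)) ?_ (by positivity) ?_
    · exact exp_le_exp.2 (by linarith)
    · have := mul_le_mul_of_nonneg_left (xx0.trans x0X) hal
      linarith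
    · exact mul_nonneg (hv.trans h2)
        ((exp_pos _).le.trans (exp_neg_bound (by linarith) (by linarith)).2)
  · have hgd : 0 ≤ g - v := sub_nonneg.2 hg
    have hy1 : gfac k1 g ≤ 1 := gfac_le hk1 (hv.trans hg) zero_le_one
      (by nlinarith [mul_nonneg hk1 (hv.trans hg)])
    have hphi := phi_le (c0 := c0) hal hk hc1 hk1 hv h2 hgd hx.le xx0 hy1 Y1y0 hX1.1 X1x0 x0X hy0.le y0Y
      hD.1 hD.2 (by linear_combination gfac_sq hk hv) (gfac_drop hk hv hg) (gfac_drop hk1 hv hg)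
    rw [certT, exp_neg, inv_mul_le_iff₀ (exp_pos _)]
    calc _ ≤ _ := hphi
      _ ≤ 99 / 100 * ((1 + lo / 2 + lo ^ 2 / 8) * (1 + (g - v) / 2)) := by
        have := mul_le_mul_of_nonneg_right hL hgd
        linarith
      _ ≤ exp (g / 2) * (99 / 100) := by linarith [exp_low hlo h1 hg]

/-- The constants of the envelopes are admissible. -/
def EnvOK (a c0 al k c1 k1 : ℝ) : Prop :=
  (1 / 3 ≤ a ∧ a ≤ 1 / 2) ∧ (0 ≤ c0 ∧ 0 ≤ al ∧ 0 ≤ k ∧ 0 ≤ c1 ∧ 0 ≤ k1) ∧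
    (∀ u, cosh u ≤ (cosh u ^ 2 - a) * (c0 + al * exp (-(k * u ^ 2)))) ∧
    ∀ u, cosh u ^ 2 - 1 ≤ (cosh u ^ 2 - a) * cosh u * (c1 * (1 - exp (-(k1 * u ^ 2))))

theorem cert_1 {v g : ℝ} (h1 : (1/4) ≤ v) (h2 : v ≤ (31/100)) (hg : v ≤ g) :
    certA (49/100) (2271/2000) (34/25) v g ≤ 99 / 100 * (19/50) ∧
      certT (49/100) (2271/2000) (34/25) (477/1000) (18/5) v g ≤ 99 / 100 := by
  rcases le_total v (27/100) with h0 | h0
  · exact cert_step (lo := (1/4)) (hi := (27/100)) (X := (1929/2500)) (X1 := (7593/10000)) (Y := (5977/10000))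
      (Y1 := (1457/2500)) (D := (27039053/100000000)) (by norm_num) (by norm_num) (by norm_num) (by norm_num)
      (by norm_num) (by norm_num) (by norm_num) (by norm_num) (by norm_num) (by norm_num)
      (by norm_num) (by norm_num) (by norm_num [expUp]) (by norm_num) (by norm_num) h1 h0 hg
  rcases le_total v (29/100) with h1 | h1
  · exact cert_step (lo := (27/100)) (hi := (29/100)) (X := (3797/5000)) (X1 := (1869/2500)) (Y := (5829/10000))
      (Y1 := (569/1000)) (D := (2020517/6250000)) (by norm_num) (by norm_num) (by norm_num) (by norm_num)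
      (by norm_num) (by norm_num) (by norm_num) (by norm_num) (by norm_num) (by norm_num)
      (by norm_num) (by norm_num) (by norm_num [expUp]) (by norm_num) (by norm_num) h0 h1 hg
  exact cert_step (lo := (29/100)) (hi := (31/100)) (X := (7477/10000)) (X1 := (1473/2000)) (Y := (5691/10000))
      (Y1 := (2781/5000)) (D := (1490813/4000000)) (by norm_num) (by norm_num) (by norm_num) (by norm_num)
      (by norm_num) (by norm_num) (by norm_num) (by norm_num) (by norm_num) (by norm_num)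
      (by norm_num) (by norm_num) (by norm_num [expUp]) (by norm_num) (by norm_num) h1 h2 hg

theorem cert_2 {v g : ℝ} (h1 : (31/100) ≤ v) (h2 : v ≤ (9/25)) (hg : v ≤ g) :
    certA (11/20) (2429/2000) (39/25) v g ≤ 99 / 100 * (43/100) ∧
      certT (11/20) (2429/2000) (39/25) (487/1000) (19/5) v g ≤ 99 / 100 := by
  rcases le_total v (49/150) with h0 | h0
  · exact cert_step (lo := (31/100)) (hi := (49/150)) (X := (713/1000)) (X1 := (7037/10000)) (Y := (5459/10000))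
      (Y1 := (2679/5000)) (D := (51441893/100000000)) (by norm_num) (by norm_num) (by norm_num) (by norm_num)
      (by norm_num) (by norm_num) (by norm_num) (by norm_num) (by norm_num) (by norm_num)
      (by norm_num) (by norm_num) (by norm_num [expUp]) (by norm_num) (by norm_num) h1 h0 hg
  rcases le_total v (103/300) with h1 | h1
  · exact cert_step (lo := (49/150)) (hi := (103/300)) (X := (3519/5000)) (X1 := (1737/2500)) (Y := (5359/10000))
      (Y1 := (5263/10000)) (D := (3448493/6250000)) (by norm_num) (by norm_num) (by norm_num) (by norm_num)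
      (by norm_num) (by norm_num) (by norm_num) (by norm_num) (by norm_num) (by norm_num)
      (by norm_num) (by norm_num) (by norm_num [expUp]) (by norm_num) (by norm_num) h0 h1 hg
  exact cert_step (lo := (103/300)) (hi := (9/25)) (X := (6949/10000)) (X1 := (3431/5000)) (Y := (329/625))
      (Y1 := (5173/10000)) (D := (14684717/25000000)) (by norm_num) (by norm_num) (by norm_num) (by norm_num)
      (by norm_num) (by norm_num) (by norm_num) (by norm_num) (by norm_num) (by norm_num)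
      (by norm_num) (by norm_num) (by norm_num [expUp]) (by norm_num) (by norm_num) h1 h2 hg

/-- The certificate: for each `v = beta^2` there are envelopes with both entries below one. -/
theorem cert {v : ℝ} (h1 : 1 / 4 ≤ v) (h2 : v ≤ 9 / 25) :
    ∃ a c0 al k c1 k1 : ℝ, EnvOK a c0 al k c1 k1 ∧ ∀ g, v ≤ g →
      certA c0 al k v g ≤ 99 / 100 * a ∧ certT c0 al k c1 k1 v g ≤ 99 / 100 := by
  rcases le_total v (31 / 100) with h | h
  · refine ⟨(19/50), (49/100), (2271/2000), (34/25), (477/1000), (18/5),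
      ⟨by norm_num, by norm_num, env1_1, env2_1⟩, fun g hg => ?_⟩
    exact cert_1 (by linarith) (by linarith) hg
  · refine ⟨(43/100), (11/20), (2429/2000), (39/25), (487/1000), (19/5),
      ⟨by norm_num, by norm_num, env1_2, env2_2⟩, fun g hg => ?_⟩
    exact cert_2 (by linarith) (by linarith) hg

end Vale.Agent.P150.Beyond.Planted
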