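import Vale.Agent.P150.Fast.QuadTail

/-!
# P150 beyond one half: splitting the couplings into row sums and the rest

`hrow g` is the normalised vector of row sums and `proj g` the part of the couplings it spans. The
couplings have the law of `g1 - proj g1 + proj g2`, and `hrow` that of an explicit linear image of
independent normal variables, by characteristic functions.
-/

open MeasureTheory ProbabilityTheory Real Finset
open Vale.Agent.P150.Fast

namespace Vale.Agent.P150.Beyond.Planted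

variable {n : ℕ}

theorem charFun_std (c : ℝ) :
    ∫ x, Complex.exp ((c : ℂ) * x * Complex.I) ∂std = Complex.exp (-((c : ℂ) ^ 2 / 2)) := by
  have h := charFun_gaussianReal (μ := 0) (v := 1) c
  rw [charFun_apply_real] at h
  simp only [std]
  convert h using 1
  simp

theorem char_stdPi {κ : Type*} [Fintype κ] (c : κ → ℝ) :
    ∫ g, Complex.exp (((∑ k, c k * g k : ℝ) : ℂ) * Complex.I) ∂stdPi κ =
      Complex.exp (-(((∑ k, c k ^ 2 : ℝ) : ℂ) / 2)) := by
  have e : ∀ g : κ → ℝ, Complex.exp (((∑ k, c k * g k : ℝ) : ℂ) * Complex.I) =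
      ∏ k, Complex.exp ((c k : ℂ) * (g k : ℂ) * Complex.I) := fun g => by
    rw [← Complex.exp_sum]; push_cast; rw [Finset.sum_mul]
  simp only [e]
  rw [stdPi, integral_fintype_prod_eq_prod (𝕜 := ℂ)
    (f := fun k (x : ℝ) => Complex.exp ((c k : ℂ) * (x : ℂ) * Complex.I))]
  simp only [charFun_std, ← Complex.exp_sum]
  push_cast
  rw [Finset.sum_neg_distrib, Finset.sum_div]

/-- A map into `ι → ℝ` all whose linear statistics are centred Gaussian with variance `Q`. -/
def IsGaussMap {Ω ι : Type*} [MeasurableSpace Ω] [Fintype ι] (μ : Measure Ω) (A : Ω → ι → ℝ)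
    (Q : (ι → ℝ) → ℝ) : Prop :=
  Measurable A ∧ ∀ v : ι → ℝ,
    ∫ ω, Complex.exp (((∑ i, v i * A ω i : ℝ) : ℂ) * Complex.I) ∂μ =
      Complex.exp (-((Q v : ℂ) / 2))

theorem isGaussMap_of_coeff {κ ι : Type*} [Fintype κ] [Fintype ι] {A : (κ → ℝ) → ι → ℝ}
    (hA : Measurable A) {Q : (ι → ℝ) → ℝ}
    (h : ∀ v, ∃ c : κ → ℝ, (∀ g, ∑ i, v i * A g i = ∑ k, c k * g k) ∧ ∑ k, c k ^ 2 = Q v) :
    IsGaussMap (stdPi κ) A Q :=
  ⟨hA, fun v => by
    obtain ⟨c, hc, hq⟩ := h v
    simp only [hc]
    rw [char_stdPi, hq]⟩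

theorem isGaussMap_of_coeff_prod {κ κ' ι : Type*} [Fintype κ] [Fintype κ'] [Fintype ι]
    {A : (κ → ℝ) × (κ' → ℝ) → ι → ℝ} (hA : Measurable A) {Q : (ι → ℝ) → ℝ}
    (h : ∀ v, ∃ (c : κ → ℝ) (d : κ' → ℝ),
      (∀ p, ∑ i, v i * A p i = (∑ k, c k * p.1 k) + ∑ k, d k * p.2 k) ∧
        (∑ k, c k ^ 2) + ∑ k, d k ^ 2 = Q v) :
    IsGaussMap ((stdPi κ).prod (stdPi κ')) A Q :=
  ⟨hA, fun v => by
    obtain ⟨c, d, hc, hq⟩ := h v
    simp only [hc, Complex.ofReal_add, add_mul, Complex.exp_add]
    refine (integral_prod_mul (fun g : κ → ℝ => Complex.exp (((∑ k, c k * g k : ℝ) : ℂ) * Complex.I))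
      (fun g : κ' → ℝ => Complex.exp (((∑ k, d k * g k : ℝ) : ℂ) * Complex.I))).trans ?_
    rw [char_stdPi, char_stdPi, ← Complex.exp_add, ← hq]
    push_cast
    congr 1
    ring⟩

/-- Maps with the same covariance have the same law. -/
theorem IsGaussMap.map_eq {Ω Ω' ι : Type*} [MeasurableSpace Ω] [MeasurableSpace Ω'] [Fintype ι]
    {μ : Measure Ω} {ν : Measure Ω'} [IsProbabilityMeasure μ] [IsProbabilityMeasure ν]
    {A : Ω → ι → ℝ} {B : Ω' → ι → ℝ} {Q : (ι → ℝ) → ℝ}
    (hA : IsGaussMap μ A Q) (hB : IsGaussMap ν B Q) : μ.map A = ν.map B := by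
  classical
  have := Measure.isProbabilityMeasure_map (μ := μ) hA.1.aemeasurable
  have := Measure.isProbabilityMeasure_map (μ := ν) hB.1.aemeasurable
  refine Measure.ext_of_charFunDual (funext fun L => ?_)
  have hL : ∀ x : ι → ℝ, L x = ∑ i, L (Pi.single i 1) * x i := fun x => by
    conv_lhs => rw [show x = ∑ i, x i • Pi.single i (1 : ℝ) from by
      funext j; simp [Finset.sum_apply, Pi.single_apply]]
    simp [map_sum, map_smul, mul_comm]
  rw [charFunDual_apply, charFunDual_apply, integral_map hA.1.aemeasurable (by fun_prop),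
    integral_map hB.1.aemeasurable (by fun_prop)]
  rw [funext fun ω => congrArg (fun t : ℝ => Complex.exp ((t : ℂ) * Complex.I)) (hL (A ω)),
    funext fun ω => congrArg (fun t : ℝ => Complex.exp ((t : ℂ) * Complex.I)) (hL (B ω))]
  rw [hA.2, hB.2]

/-- The row sums. -/
noncomputable def rowSum (g : Edge n → ℝ) (i : Fin n) : ℝ := ∑ j, gmat n g i j

/-- The normalised, decorrelated row sums. -/
noncomputable def hrow (g : Edge n → ℝ) (i : Fin n) : ℝ :=
  √(n : ℝ) / ((n : ℝ) - 2) * (rowSum g i - (∑ j, rowSum g j) / (2 * ((n : ℝ) - 1)))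

/-- The part of the couplings spanned by the row sums. -/
noncomputable def proj (g : Edge n → ℝ) (e : Edge n) : ℝ :=
  (hrow g e.1.1 + hrow g e.1.2) / √(n : ℝ)

theorem edge_dot (v : Edge n → ℝ) (r : Fin n → ℝ) :
    ∑ e, v e * (r e.1.1 + r e.1.2) = ∑ i, rowSum v i * r i := by
  have h := sum_edge (fun i j => gmat n v i j * (r i + r j)) fun i j => by
    rw [gmat_symm v i j]; ring
  simp only [gmat_self, zero_mul, Finset.sum_const_zero, sub_zero] at h
  have e1 : ∑ i, ∑ j, gmat n v i j * (r i + r j) = 2 * ∑ i, rowSum v i * r i := by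
    simp only [mul_add, Finset.sum_add_distrib]
    rw [Finset.sum_comm (f := fun i j => gmat n v i j * r j), two_mul]
    refine congrArg₂ (· + ·) ?_ ?_ <;>
      refine Finset.sum_congr rfl fun i _ => ?_ <;> rw [rowSum, Finset.sum_mul] <;>
      refine Finset.sum_congr rfl fun j _ => ?_
    rw [gmat_symm v j i]
  rw [e1] at h
  have e2 : ∑ e : Edge n, gmat n v e.1.1 e.1.2 * (r e.1.1 + r e.1.2) =
      ∑ e, v e * (r e.1.1 + r e.1.2) :=
    Finset.sum_congr rfl fun e _ => by rw [gmat, dif_pos e.2]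
  linarith [h, e2]

theorem rowSum_pairs (a : Fin n → ℝ) (i : Fin n) :
    rowSum (fun e : Edge n => a e.1.1 + a e.1.2) i = ((n : ℝ) - 2) * a i + ∑ j, a j := by
  have e : ∀ j, gmat n (fun e : Edge n => a e.1.1 + a e.1.2) i j =
      (a i + a j) - if i = j then 2 * a i else 0 := fun j => by
    rcases lt_trichotomy i j with h | h | h
    · simp [gmat, h, h.ne]
    · subst h; simp [gmat_self]; ring
    · simp [gmat, h, h.not_gt, h.ne']; ring
  simp only [rowSum, e, Finset.sum_sub_distrib, Finset.sum_add_distrib, Finset.sum_ite_eq,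
    Finset.mem_univ, if_true, Finset.sum_const, Finset.card_univ, Fintype.card_fin, nsmul_eq_mul]
  ring

theorem sum_sq_pairs (a : Fin n → ℝ) :
    ∑ e : Edge n, (a e.1.1 + a e.1.2) ^ 2 = ((n : ℝ) - 2) * ∑ i, a i ^ 2 + (∑ i, a i) ^ 2 := by
  have h := edge_dot (fun e : Edge n => a e.1.1 + a e.1.2) a
  simp only [← sq] at h
  rw [h]
  simp only [rowSum_pairs, add_mul, Finset.sum_add_distrib, mul_assoc, ← Finset.mul_sum, ← sq]

theorem rowSum_add (g g' : Edge n → ℝ) (i : Fin n) :
    rowSum (g + g') i = rowSum g i + rowSum g' i := by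
  simp only [rowSum, ← Finset.sum_add_distrib]
  refine Finset.sum_congr rfl fun j _ => ?_
  simp only [gmat]; split_ifs <;> simp

theorem rowSum_neg (g : Edge n → ℝ) (i : Fin n) : rowSum (-g) i = -rowSum g i := by
  simp only [rowSum, ← Finset.sum_neg_distrib]
  refine Finset.sum_congr rfl fun j _ => ?_
  simp only [gmat]; split_ifs <;> simp

theorem hrow_add (g g' : Edge n → ℝ) : hrow (g + g') = hrow g + hrow g' := by
  funext i
  simp only [hrow, rowSum_add, Finset.sum_add_distrib, Pi.add_apply]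
  ring

theorem hrow_neg (g : Edge n → ℝ) : hrow (-g) = -hrow g := by
  funext i
  simp only [hrow, rowSum_neg, Finset.sum_neg_distrib, Pi.neg_apply]
  ring

theorem sum_hrow (hn : 3 ≤ n) (g : Edge n → ℝ) :
    ∑ i, hrow g i = √(n : ℝ) / (2 * ((n : ℝ) - 1)) * ∑ i, rowSum g i := by
  have hn3 : (3 : ℝ) ≤ n := by exact_mod_cast hn
  simp only [hrow, ← Finset.mul_sum, Finset.sum_sub_distrib, Finset.sum_const, Finset.card_univ,
    Fintype.card_fin, nsmul_eq_mul]
  have h2 : (n : ℝ) - 2 ≠ 0 := by linarith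
  have h1 : (n : ℝ) - 1 ≠ 0 := by linarith
  field_simp
  ring

theorem rowSum_proj (hn : 3 ≤ n) (g : Edge n → ℝ) (i : Fin n) :
    rowSum (proj g) i = rowSum g i := by
  have hn3 : (3 : ℝ) ≤ n := by exact_mod_cast hn
  have hp : proj g = fun e : Edge n => hrow g e.1.1 / √(n : ℝ) + hrow g e.1.2 / √(n : ℝ) := by
    funext e; simp only [proj]; ring
  rw [hp, rowSum_pairs (fun j => hrow g j / √(n : ℝ)), ← Finset.sum_div, sum_hrow hn, hrow]
  have h2 : (n : ℝ) - 2 ≠ 0 := by linarith
  have h1 : (n : ℝ) - 1 ≠ 0 := by linarith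
  have hs : √(n : ℝ) ≠ 0 := (sqrt_pos.2 (by linarith)).ne'
  field_simp
  ring

theorem hrow_proj (hn : 3 ≤ n) (g : Edge n → ℝ) : hrow (proj g) = hrow g := by
  funext i; simp only [hrow, rowSum_proj hn]

theorem hrow_split (hn : 3 ≤ n) (g g' : Edge n → ℝ) : hrow (g - proj g + proj g') = hrow g' := by
  rw [hrow_add, sub_eq_add_neg, hrow_add, hrow_neg, hrow_proj hn, hrow_proj hn]
  simp

theorem rowSum_eq_hrow (hn : 3 ≤ n) (g : Edge n → ℝ) (i : Fin n) :
    rowSum g i = (((n : ℝ) - 2) * hrow g i + ∑ j, hrow g j) / √(n : ℝ) := by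
  rw [← rowSum_proj hn g i]
  have hp : proj g = fun e : Edge n => hrow g e.1.1 / √(n : ℝ) + hrow g e.1.2 / √(n : ℝ) := by
    funext e; simp only [proj]; ring
  rw [hp, rowSum_pairs (fun j => hrow g j / √(n : ℝ)), ← Finset.sum_div]
  ring

theorem proj_symm (v g : Edge n → ℝ) : ∑ e, v e * proj g e = ∑ e, proj v e * g e := by
  have e : ∀ a b : Edge n → ℝ, ∑ e, a e * proj b e = (∑ i, rowSum a i * hrow b i) / √(n : ℝ) :=
    fun a b => by
      rw [← edge_dot, Finset.sum_div]
      refine Finset.sum_congr rfl fun e _ => ?_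
      simp only [proj]; ring
  rw [e, show ∑ e, proj v e * g e = ∑ e, g e * proj v e from
    Finset.sum_congr rfl fun e _ => mul_comm _ _, e]
  congr 1
  have key : ∀ a b : Fin n → ℝ, ∀ c d : ℝ,
      ∑ i, a i * (c * (b i - (∑ j, b j) / d)) = c * (∑ i, a i * b i - (∑ i, a i) * (∑ i, b i) / d) :=
    fun a b c d => by
      simp only [mul_sub, Finset.sum_sub_distrib, Finset.mul_sum, ← mul_assoc, mul_comm _ c]
      refine congrArg₂ (fun x y : ℝ => x - y) rfl ?_
      simp only [← Finset.mul_sum, ← Finset.sum_mul]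
      ring
  simp only [hrow]
  rw [key, key, show ∑ i, rowSum g i * rowSum v i = ∑ i, rowSum v i * rowSum g i from
    Finset.sum_congr rfl fun i _ => mul_comm _ _]
  ring

theorem proj_sq (hn : 3 ≤ n) (v : Edge n → ℝ) : ∑ e, proj v e ^ 2 = ∑ e, v e * proj v e := by
  have hid : proj (proj v) = proj v := by funext e; simp only [proj, hrow_proj hn]
  simp only [sq]
  rw [proj_symm (proj v) v, hid]
  exact Finset.sum_congr rfl fun e _ => mul_comm _ _

theorem measurable_proj : Measurable (proj (n := n)) := by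
  unfold proj hrow rowSum gmat
  exact measurable_pi_lambda _ fun e => by
    have h : ∀ i j : Fin n, Continuous fun g : Edge n → ℝ =>
        if h : i < j then g ⟨(i, j), h⟩ else if h' : j < i then g ⟨(j, i), h'⟩ else 0 := fun i j => by
      split_ifs <;> fun_prop
    fun_prop

theorem continuous_gmat (i j : Fin n) : Continuous fun g : Edge n → ℝ => gmat n g i j := by
  unfold gmat
  split_ifs <;> fun_prop

theorem continuous_hrow : Continuous (hrow (n := n)) := by
  have := continuous_gmat (n := n)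
  unfold hrow rowSum
  fun_prop

theorem continuous_proj : Continuous (proj (n := n)) := by
  have := continuous_hrow (n := n)
  unfold proj
  fun_prop

/-- The couplings have the law of `g - proj g + proj g'`. -/
theorem map_split (hn : 3 ≤ n) :
    ((stdPi (Edge n)).prod (stdPi (Edge n))).map (fun p => p.1 - proj p.1 + proj p.2) =
      stdPi (Edge n) := by
  have hc : Continuous fun p : (Edge n → ℝ) × (Edge n → ℝ) => p.1 - proj p.1 + proj p.2 := by
    have := continuous_proj (n := n)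
    fun_prop
  have h1 : IsGaussMap ((stdPi (Edge n)).prod (stdPi (Edge n)))
      (fun p => p.1 - proj p.1 + proj p.2) (fun v => ∑ e, v e ^ 2) :=
    isGaussMap_of_coeff_prod hc.measurable fun v => ⟨fun e => v e - proj v e, proj v, fun p => by
      simp only [Pi.add_apply, Pi.sub_apply, mul_add, mul_sub, sub_mul, Finset.sum_add_distrib,
        Finset.sum_sub_distrib, proj_symm], by
      simp only [sub_sq, Finset.sum_add_distrib, Finset.sum_sub_distrib, mul_assoc, ← Finset.mul_sum]
      linarith [proj_sq hn v]⟩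
  have h2 : IsGaussMap (stdPi (Edge n)) id (fun v : Edge n → ℝ => ∑ e, v e ^ 2) :=
    isGaussMap_of_coeff measurable_id fun v => ⟨v, fun g => rfl, rfl⟩
  rw [h1.map_eq h2, Measure.map_id]

/-- The centring constant. -/
noncomputable def ctr (n : ℕ) : ℝ := (1 - √(((n : ℝ) - 2) / (2 * ((n : ℝ) - 1)))) / n

/-- The representation of `hrow` by independent variables. -/
noncomputable def hrep (ζ : Fin n → ℝ) (i : Fin n) : ℝ :=
  √((n : ℝ) / ((n : ℝ) - 2)) * (ζ i - ctr n * ∑ j, ζ j)

/-- `hrow` has the law of `hrep`. -/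
theorem map_hrow (hn : 3 ≤ n) :
    (stdPi (Edge n)).map hrow = (stdPi (Fin n)).map (hrep (n := n)) := by
  have hn3 : (3 : ℝ) ≤ n := by exact_mod_cast hn
  have h2 : (n : ℝ) - 2 ≠ 0 := by linarith
  have h1 : (n : ℝ) - 1 ≠ 0 := by linarith
  have hn0 : (n : ℝ) ≠ 0 := by linarith
  set Q : (Fin n → ℝ) → ℝ := fun v =>
    (n : ℝ) / ((n : ℝ) - 2) * (∑ i, v i ^ 2 - (∑ i, v i) ^ 2 / (2 * ((n : ℝ) - 1)))
  have hA : IsGaussMap (stdPi (Edge n)) hrow Q :=
    isGaussMap_of_coeff continuous_hrow.measurable fun v => by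
      set w : Fin n → ℝ := fun i =>
        √(n : ℝ) / ((n : ℝ) - 2) * (v i - (∑ j, v j) / (2 * ((n : ℝ) - 1)))
      refine ⟨fun e => w e.1.1 + w e.1.2, fun g => ?_, ?_⟩
      · rw [show ∑ e : Edge n, (w e.1.1 + w e.1.2) * g e = ∑ e : Edge n, g e * (w e.1.1 + w e.1.2)
          from Finset.sum_congr rfl fun e _ => mul_comm _ _, edge_dot]
        simp only [w, hrow, mul_sub, Finset.sum_sub_distrib, ← Finset.sum_mul]
        refine congrArg₂ (· - ·) (Finset.sum_congr rfl fun i _ => ?_) ?_ <;> ring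
      · rw [sum_sq_pairs]
        have e1 : ∑ i, w i ^ 2 = (√(n : ℝ) / ((n : ℝ) - 2)) ^ 2 *
            (∑ i, v i ^ 2 - 2 * ((∑ j, v j) / (2 * ((n : ℝ) - 1))) * ∑ i, v i
              + n * ((∑ j, v j) / (2 * ((n : ℝ) - 1))) ^ 2) := by
          simp only [w, mul_pow, sub_sq, ← Finset.mul_sum, Finset.sum_add_distrib,
            Finset.sum_sub_distrib, Finset.sum_const, Finset.card_univ, Fintype.card_fin,
            nsmul_eq_mul]
          rw [← Finset.sum_mul, ← Finset.mul_sum]
          ring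
        have e2 : ∑ i, w i = √(n : ℝ) / ((n : ℝ) - 2) *
            (∑ i, v i - n * ((∑ j, v j) / (2 * ((n : ℝ) - 1)))) := by
          simp only [w, ← Finset.mul_sum, Finset.sum_sub_distrib, Finset.sum_const,
            Finset.card_univ, Fintype.card_fin, nsmul_eq_mul]
        rw [e1, e2, mul_pow, div_pow, sq_sqrt (by linarith : (0 : ℝ) ≤ n)]
        simp only [Q]
        field_simp
        ring
  have hB : IsGaussMap (stdPi (Fin n)) (hrep (n := n)) Q :=
    isGaussMap_of_coeff (by unfold hrep; fun_prop) fun v => by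
      refine ⟨fun i => √((n : ℝ) / ((n : ℝ) - 2)) * (v i - ctr n * ∑ j, v j), fun g => ?_, ?_⟩
      · simp only [hrep, mul_sub, sub_mul, Finset.sum_sub_distrib]
        refine congrArg₂ (· - ·) (Finset.sum_congr rfl fun i _ => by ring) ?_
        rw [← Finset.sum_mul, ← Finset.mul_sum]
        ring
      · simp only [mul_pow, sub_sq, ← Finset.mul_sum, Finset.sum_add_distrib,
          Finset.sum_sub_distrib, Finset.sum_const, Finset.card_univ, Fintype.card_fin, nsmul_eq_mul]
        rw [← Finset.sum_mul, ← Finset.mul_sum, sq_sqrt (div_nonneg (by linarith) (by linarith))]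
        have hc : (1 - ctr n * n) ^ 2 = ((n : ℝ) - 2) / (2 * ((n : ℝ) - 1)) := by
          rw [ctr, div_mul_cancel₀ _ hn0, sub_sub_cancel,
            sq_sqrt (div_nonneg (by linarith) (by linarith))]
        have hk : 2 * ctr n - n * ctr n ^ 2 = 1 / (2 * ((n : ℝ) - 1)) := by
          have h := hc
          field_simp at h ⊢
          refine mul_left_cancel₀ hn0 ?_
          linear_combination -h
        simp only [Q]
        linear_combination (-((n : ℝ) / ((n : ℝ) - 2)) * (∑ i, v i) ^ 2) * hk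
  exact hA.map_eq hB

end Vale.Agent.P150.Beyond.Planted
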