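import Vale.Agent.P150.Beyond.Planted.Sites
import Vale.Agent.P150.Beyond.Planted.Law
import Vale.Agent.P150.Beyond.Defs

/-!
# P150 beyond one half: at a typical sample the comparison matrix is definite

With `r = hrep ζ` the row sums, the quadratic form left after the Gaussian comparison is at most a
rank-three form, whose Gram matrix in the metric `1 / fw` has norm below one at a typical sample.
-/

open Real Finset
open Vale.Agent.P150.Fast

namespace Vale.Agent.P150.Beyond.Planted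

variable {n : ℕ}

/-- The planted field in terms of the normalised row sums. -/
noncomputable def rfield (β σ : ℝ) (r z : Fin n → ℝ) (i : Fin n) : ℝ :=
  β * ((((n : ℝ) - 2) * r i + ∑ j, r j) / n + β * ((n : ℝ) - 1) / n) + σ + √σ * z i

/-- The part of the criterion which depends on the couplings only through the row sums. -/
noncomputable def rest (β σ : ℝ) (r z u w : Fin n → ℝ) : ℝ :=
  2 * β / n * ((∑ i, r i * u i) * (∑ i, u i) - ∑ i, r i * u i ^ 2) +
      β ^ 2 / n * ((∑ i, u i) ^ 2 - ∑ i, u i ^ 2) +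
      2 * β ^ 2 / n * (∑ i, tanh (rfield β σ r z i + w i) * u i) ^ 2 -
    (1 - 1 / 10000) * ∑ i, u i ^ 2 * cosh (rfield β σ r z i + w i) ^ 2

/-- The event left after the comparison. -/
def SideFails (β σ ε : ℝ) (r z y : Fin n → ℝ) : Prop :=
  ∃ u w : Fin n → ℝ, ∑ i, w i ^ 2 ≤ ε * n ∧
    0 < β / √(n : ℝ) * (2 * √(∑ i, u i ^ 2) * ∑ i, y i * u i) + rest β σ r z u w

theorem rank_three (F p q r : Fin n → ℝ) (hF : ∀ i, 0 < F i) {A e : ℝ}
    (hp : ∑ i, p i ^ 2 * F i ≤ A) (hqr : ∑ i, (q i ^ 2 + r i ^ 2) * F i ≤ A)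
    (hpq : |∑ i, p i * q i * F i| ≤ e) (hpr : |∑ i, p i * r i * F i| ≤ e) (hA : A + 2 * e ≤ 1)
    (u : Fin n → ℝ) :
    (∑ i, p i * u i) ^ 2 + (∑ i, q i * u i) ^ 2 + (∑ i, r i * u i) ^ 2 ≤ ∑ i, u i ^ 2 / F i := by
  set x := ∑ i, p i * u i
  set y := ∑ i, q i * u i
  set z := ∑ i, r i * u i
  have he : 0 ≤ e := (abs_nonneg _).trans hpq
  have h1 : ∀ i, 2 * (u i * (x * p i + y * q i + z * r i)) ≤
      u i ^ 2 / F i + (x ^ 2 * (p i ^ 2 * F i) + (y ^ 2 + z ^ 2) * ((q i ^ 2 + r i ^ 2) * F i) +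
        2 * x * y * (p i * q i * F i) + 2 * x * z * (p i * r i * F i)) := fun i => by
    have h := sq_nonneg (u i - F i * (x * p i + y * q i + z * r i))
    have h3 := mul_nonneg (hF i).le (sq_nonneg (y * r i - z * q i))
    rw [← sub_nonneg]
    refine nonneg_of_mul_nonneg_right ?_ (hF i)
    have e1 : F i * (u i ^ 2 / F i) = u i ^ 2 := by rw [mul_div_cancel₀ _ (hF i).ne']
    nlinarith [h, mul_nonneg (hF i).le h3, e1]
  have h2 := Finset.sum_le_sum (s := univ) fun i _ => h1 i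
  have e2 : ∑ i, u i * (x * p i + y * q i + z * r i) = x ^ 2 + y ^ 2 + z ^ 2 := by
    simp only [x, y, z, mul_add, Finset.sum_add_distrib, sq]
    refine congrArg₂ (fun a b : ℝ => a + b) (congrArg₂ (fun a b : ℝ => a + b) ?_ ?_) ?_ <;>
      (rw [Finset.mul_sum]; exact Finset.sum_congr rfl fun i _ => by ring)
  rw [← Finset.mul_sum, e2] at h2
  simp only [Finset.sum_add_distrib, ← Finset.mul_sum] at h2
  have q1 : 2 * x * y * (∑ i, p i * q i * F i) ≤ e * (x ^ 2 + y ^ 2) := by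
    have := mul_le_mul (le_refl |2 * x * y|) hpq (abs_nonneg _) (abs_nonneg _)
    rw [← abs_mul] at this
    refine (le_abs_self _).trans (this.trans ?_)
    rw [mul_comm e, abs_mul, abs_mul, abs_two]
    refine mul_le_mul_of_nonneg_right ?_ he
    nlinarith [sq_nonneg (|x| - |y|), sq_abs x, sq_abs y]
  have q2 : 2 * x * z * (∑ i, p i * r i * F i) ≤ e * (x ^ 2 + z ^ 2) := by
    have := mul_le_mul (le_refl |2 * x * z|) hpr (abs_nonneg _) (abs_nonneg _)
    rw [← abs_mul] at this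
    refine (le_abs_self _).trans (this.trans ?_)
    rw [mul_comm e, abs_mul, abs_mul, abs_two]
    refine mul_le_mul_of_nonneg_right ?_ he
    nlinarith [sq_nonneg (|x| - |z|), sq_abs x, sq_abs z]
  have q3 := mul_le_mul_of_nonneg_left hp (sq_nonneg x)
  have q4 := mul_le_mul_of_nonneg_left hqr (add_nonneg (sq_nonneg y) (sq_nonneg z))
  have q5 := mul_le_mul_of_nonneg_right hA (add_nonneg (add_nonneg (sq_nonneg x) (sq_nonneg y)) (sq_nonneg z))
  nlinarith [mul_nonneg he (sq_nonneg y), mul_nonneg he (sq_nonneg z)]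

theorem tanh_lip (x y : ℝ) : |tanh x - tanh y| ≤ |x - y| := by
  have hd : ∀ t : ℝ, HasDerivAt tanh ((cosh t ^ 2 - sinh t ^ 2) / cosh t ^ 2) t := fun t => by
    have h := ((hasDerivAt_sinh t).div (hasDerivAt_cosh t) (cosh_pos t).ne').congr_deriv
      (show (cosh t * cosh t - sinh t * sinh t) / cosh t ^ 2 =
        (cosh t ^ 2 - sinh t ^ 2) / cosh t ^ 2 by ring)
    exact h.congr_of_eventuallyEq (Filter.Eventually.of_forall fun s => tanh_eq_sinh_div_cosh s)
  have h := Convex.norm_image_sub_le_of_norm_hasDerivWithin_le (C := 1)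
    (fun t _ => (hd t).hasDerivWithinAt) (fun t _ => ?_) convex_univ (Set.mem_univ y) (Set.mem_univ x)
  · simpa [Real.norm_eq_abs] using h
  · rw [cosh_sq_sub_sinh_sq, Real.norm_of_nonneg (by positivity), div_le_one (by positivity)]
    nlinarith [one_le_cosh t]

theorem fw_lip {a : ℝ} (ha0 : 0 ≤ a) (ha : a ≤ 1 / 2) (x y : ℝ) :
    |fw a x - fw a y| ≤ 10 * |x - y| := by
  have e : ∀ t : ℝ, fw a t = (1 - tanh t ^ 2) /
      ((1 - 1 / 10000) - (a + 1 / 10000) * (1 - tanh t ^ 2)) := fun t => by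
    have hc := (cosh_pos t).ne'
    have hD : 1 - tanh t ^ 2 = 1 / cosh t ^ 2 := by
      rw [tanh_eq_sinh_div_cosh, div_pow, sinh_sq]; field_simp; ring
    rw [hD, fw]
    field_simp
  rw [e, e]
  set p := 1 - tanh x ^ 2 with hp
  set q := 1 - tanh y ^ 2 with hq
  have hp1 : p ≤ 1 := by nlinarith [sq_nonneg (tanh x)]
  have hq1 : q ≤ 1 := by nlinarith [sq_nonneg (tanh y)]
  have hdp : 49 / 100 ≤ (1 - 1 / 10000) - (a + 1 / 10000) * p := by nlinarith
  have hdq : 49 / 100 ≤ (1 - 1 / 10000) - (a + 1 / 10000) * q := by nlinarith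
  have hpq : |p - q| ≤ 2 * |x - y| := by
    rw [hp, hq, show 1 - tanh x ^ 2 - (1 - tanh y ^ 2) = (tanh y - tanh x) * (tanh y + tanh x) by ring,
      abs_mul, mul_comm 2 |x - y|, abs_sub_comm x y]
    refine mul_le_mul (tanh_lip y x) ((abs_add_le _ _).trans ?_) (abs_nonneg _) (abs_nonneg _)
    linarith [(abs_tanh_lt_one x).le, (abs_tanh_lt_one y).le]
  rw [div_sub_div _ _ (by linarith) (by linarith), abs_div,
    abs_of_pos (mul_pos (by linarith : (0 : ℝ) < (1 - 1 / 10000) - (a + 1 / 10000) * p)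
      (by linarith : (0 : ℝ) < (1 - 1 / 10000) - (a + 1 / 10000) * q)),
    div_le_iff₀ (mul_pos (by linarith) (by linarith))]
  rw [show p * ((1 - 1 / 10000) - (a + 1 / 10000) * q) -
      ((1 - 1 / 10000) - (a + 1 / 10000) * p) * q = (1 - 1 / 10000) * (p - q) by ring,
    abs_mul, abs_of_pos (by norm_num : (0 : ℝ) < 1 - 1 / 10000)]
  have := mul_le_mul hdp hdq (by norm_num) (by linarith)
  nlinarith [abs_nonneg (x - y), abs_nonneg (p - q)]

/-- The pointwise error terms at one site. -/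
theorem site_errors {a K τ β y H H₀ h h₀ : ℝ} (ha0 : 0 ≤ a) (ha : a ≤ 1 / 2) (hK : 1 ≤ K)
    (hτ : 0 < τ) (hτ1 : τ ≤ 1) (hβ0 : 0 ≤ β) (hβ : β ≤ 1) :
    y ^ 2 * fw a h ≤ clip K y ^ 2 * fw a h₀ + (5 / 2 * utail K y + 10 * K ^ 2 * |h - h₀|) ∧
    (2 * β ^ 2 * tanh h ^ 2 + H ^ 2) * fw a h ≤
      (2 * β ^ 2 * tanh h₀ ^ 2 + clip K H₀ ^ 2) * fw a h₀ +
        ((32 + 10 * K ^ 2) * |h - h₀| + 5 / 2 * utail K H₀ +
          5 / 2 * (τ * H₀ ^ 2 + 2 / τ * (H - H₀) ^ 2)) ∧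
    |y * tanh h * fw a h - clip K y * tanh h₀ * fw a h₀| ≤
      5 * utail K y + 13 * K * |h - h₀| ∧
    |y * H * fw a h - clip K y * clip K H₀ * fw a h₀| ≤
      5 / 2 * (τ * y ^ 2 + 1 / τ * (H - H₀) ^ 2) + 5 * (utail K y + utail K H₀) +
        10 * K ^ 2 * |h - h₀| := by
  have hK0 : 0 ≤ K := by linarith
  have hF := (fw_pos ha h).le
  have hF0 := (fw_pos ha h₀).le
  have hF2 := fw_le ha h
  have hF02 := fw_le ha h₀
  have hlip := fw_lip ha0 ha h h₀
  obtain ⟨hl1, hl2⟩ := abs_le.1 hlip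
  have ht := (abs_tanh_lt_one h).le
  have ht0 := (abs_tanh_lt_one h₀).le
  have hd := abs_nonneg (h - h₀)
  have htd : |tanh h * fw a h - tanh h₀ * fw a h₀| ≤ 13 * |h - h₀| := by
    rw [show tanh h * fw a h - tanh h₀ * fw a h₀ =
      (tanh h - tanh h₀) * fw a h + tanh h₀ * (fw a h - fw a h₀) by ring]
    refine (abs_add_le _ _).trans ?_
    rw [abs_mul, abs_mul, abs_of_nonneg hF]
    have p1 : |tanh h - tanh h₀| * fw a h ≤ |h - h₀| * (5 / 2) :=
      mul_le_mul (tanh_lip h h₀) hF2 hF hd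
    have p2 : |tanh h₀| * |fw a h - fw a h₀| ≤ 1 * (10 * |h - h₀|) :=
      mul_le_mul ht0 hlip (abs_nonneg _) zero_le_one
    linarith
  have hsq : ∀ v : ℝ, clip K v ^ 2 ≤ K ^ 2 := fun v =>
    sq_le_sq.2 ((abs_clip_le hK0 v).trans (le_abs_self K))
  have hu : ∀ v : ℝ, v ^ 2 * fw a h ≤ clip K v ^ 2 * fw a h₀ +
      (5 / 2 * utail K v + 10 * K ^ 2 * |h - h₀|) := fun v => by
    have h1 : v ^ 2 ≤ clip K v ^ 2 + utail K v := by
      unfold utail
      split_ifs with hv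
      · linarith [sq_nonneg (clip K v)]
      · rw [clip_of_le (not_lt.1 hv)]; linarith
    have h2 := mul_le_mul_of_nonneg_right h1 hF
    have h3 : utail K v * fw a h ≤ utail K v * (5 / 2) :=
      mul_le_mul_of_nonneg_left hF2 (utail_nonneg K v)
    have h4 : clip K v ^ 2 * (fw a h - fw a h₀) ≤ K ^ 2 * (10 * |h - h₀|) :=
      (mul_le_mul_of_nonneg_left hl2 (sq_nonneg _)).trans
        (mul_le_mul_of_nonneg_right (hsq v) (by positivity))
    linarith
  refine ⟨hu y, ?_, ?_, ?_⟩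
  · have h1 := hu H₀
    have h2 : H ^ 2 ≤ H₀ ^ 2 + (τ * H₀ ^ 2 + 2 / τ * (H - H₀) ^ 2) := by
      have p1 := sq_nonneg (τ * H₀ - (H - H₀))
      have p2 : τ * (2 / τ * (H - H₀) ^ 2) = 2 * (H - H₀) ^ 2 := by field_simp
      refine le_of_mul_le_mul_left ?_ hτ
      nlinarith [mul_nonneg (sub_nonneg.2 hτ1) (sq_nonneg (H - H₀))]
    have h3 := mul_le_mul_of_nonneg_right h2 hF
    have h4 : (τ * H₀ ^ 2 + 2 / τ * (H - H₀) ^ 2) * fw a h ≤
        (τ * H₀ ^ 2 + 2 / τ * (H - H₀) ^ 2) * (5 / 2) :=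
      mul_le_mul_of_nonneg_left hF2 (by positivity)
    have h5 : |tanh h ^ 2 * fw a h - tanh h₀ ^ 2 * fw a h₀| ≤ 16 * |h - h₀| := by
      rw [show tanh h ^ 2 * fw a h - tanh h₀ ^ 2 * fw a h₀ =
        tanh h * (tanh h * fw a h - tanh h₀ * fw a h₀) + tanh h₀ * ((tanh h - tanh h₀) * fw a h₀) by ring]
      refine (abs_add_le _ _).trans ?_
      rw [abs_mul, abs_mul, abs_mul, abs_of_nonneg hF0]
      have p1 : |tanh h| * |tanh h * fw a h - tanh h₀ * fw a h₀| ≤ 1 * (13 * |h - h₀|) :=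
        mul_le_mul ht htd (abs_nonneg _) zero_le_one
      have p2 : |tanh h - tanh h₀| * fw a h₀ ≤ |h - h₀| * (5 / 2) :=
        mul_le_mul (tanh_lip h h₀) hF02 hF0 hd
      have p3 : |tanh h₀| * (|tanh h - tanh h₀| * fw a h₀) ≤ 1 * (|h - h₀| * (5 / 2)) :=
        mul_le_mul ht0 p2 (mul_nonneg (abs_nonneg _) hF0) zero_le_one
      have p4 : tanh h ^ 2 * 0 = 0 := mul_zero _
      linarith
    have h6 : 2 * β ^ 2 * (tanh h ^ 2 * fw a h - tanh h₀ ^ 2 * fw a h₀) ≤ 2 * (16 * |h - h₀|) := by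
      refine (le_abs_self _).trans ?_
      rw [abs_mul, abs_of_nonneg (by positivity : (0:ℝ) ≤ 2 * β ^ 2)]
      exact mul_le_mul (by nlinarith [pow_le_one₀ (n := 2) hβ0 hβ]) h5 (abs_nonneg _) zero_le_two
    linarith
  · by_cases hy : |y| ≤ K
    · rw [clip_of_le hy, show y * tanh h * fw a h - y * tanh h₀ * fw a h₀ =
        y * (tanh h * fw a h - tanh h₀ * fw a h₀) by ring, abs_mul]
      have := mul_le_mul hy htd (abs_nonneg _) hK0
      linarith [utail_nonneg K y]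
    · have hy2 : utail K y = y ^ 2 := by unfold utail; rw [if_pos (not_le.1 hy)]
      have hyy : |y| ≤ y ^ 2 := by rw [← sq_abs]; nlinarith [not_le.1 hy]
      have p1 : |y * tanh h * fw a h| ≤ |y| * (5 / 2) := by
        rw [abs_mul, abs_mul, abs_of_nonneg hF]
        exact mul_le_mul (mul_le_of_le_one_right (abs_nonneg y) ht) hF2 hF (abs_nonneg y)
      have p2 : |clip K y * tanh h₀ * fw a h₀| ≤ |y| * (5 / 2) := by
        rw [abs_mul, abs_mul, abs_of_nonneg hF0]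
        exact mul_le_mul ((mul_le_of_le_one_right (abs_nonneg _) ht0).trans (abs_clip_le_abs hK0 y))
          hF02 hF0 (abs_nonneg y)
      refine (abs_sub _ _).trans ?_
      rw [hy2]
      nlinarith [mul_nonneg hK0 hd]
  · rw [show y * H * fw a h - clip K y * clip K H₀ * fw a h₀ = y * (H - H₀) * fw a h +
      (y * H₀ * fw a h - clip K y * clip K H₀ * fw a h₀) by ring]
    refine (abs_add_le _ _).trans ?_
    have p1 : |y * (H - H₀) * fw a h| ≤ 5 / 2 * (τ * y ^ 2 + 1 / τ * (H - H₀) ^ 2) := by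
      rw [abs_mul, abs_of_nonneg hF, mul_comm (5 / 2 : ℝ)]
      refine mul_le_mul ?_ hF2 hF (by positivity)
      have q := sq_nonneg (τ * |y| - |H - H₀|)
      have q2 : τ * (1 / τ * (H - H₀) ^ 2) = (H - H₀) ^ 2 := by field_simp
      refine le_of_mul_le_mul_left ?_ hτ
      rw [abs_mul, mul_add, q2, ← sq_abs y, ← sq_abs (H - H₀)]
      nlinarith [mul_nonneg (mul_nonneg hτ.le (abs_nonneg y)) (abs_nonneg (H - H₀))]
    have p2 : |y * H₀ * fw a h - clip K y * clip K H₀ * fw a h₀| ≤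
        5 * (utail K y + utail K H₀) + 10 * K ^ 2 * |h - h₀| := by
      have hbig : |y * H₀| ≤ utail K y + utail K H₀ → |y * H₀ * fw a h - clip K y * clip K H₀ * fw a h₀|
          ≤ 5 * (utail K y + utail K H₀) + 10 * K ^ 2 * |h - h₀| := fun hb => by
        have q1 : |y * H₀ * fw a h| ≤ |y * H₀| * (5 / 2) := by
          rw [abs_mul, abs_of_nonneg hF]; exact mul_le_mul_of_nonneg_left hF2 (abs_nonneg _)
        have q2 : |clip K y * clip K H₀ * fw a h₀| ≤ |y * H₀| * (5 / 2) := by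
          rw [abs_mul, abs_of_nonneg hF0, abs_mul, abs_mul y H₀]
          exact mul_le_mul (mul_le_mul (abs_clip_le_abs hK0 y) (abs_clip_le_abs hK0 H₀) (abs_nonneg _)
            (abs_nonneg _)) hF02 hF0 (by positivity)
        refine (abs_sub _ _).trans ?_
        nlinarith [mul_nonneg (sq_nonneg K) hd]
      by_cases hy : |y| ≤ K
      · by_cases hH : |H₀| ≤ K
        · rw [clip_of_le hy, clip_of_le hH, show y * H₀ * fw a h - y * H₀ * fw a h₀ =
            y * H₀ * (fw a h - fw a h₀) by ring, abs_mul, abs_mul]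
          have := mul_le_mul (mul_le_mul hy hH (abs_nonneg _) hK0) hlip (abs_nonneg _) (by positivity)
          linarith [utail_nonneg K y, utail_nonneg K H₀]
        · refine hbig ?_
          rw [abs_mul]
          have hu : utail K H₀ = H₀ ^ 2 := by unfold utail; rw [if_pos (not_le.1 hH)]
          nlinarith [utail_nonneg K y, mul_le_mul_of_nonneg_right (hy.trans (not_le.1 hH).le) (abs_nonneg H₀),
            sq_abs H₀]
      · refine hbig ?_
        rw [abs_mul]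
        have hu : utail K y = y ^ 2 := by unfold utail; rw [if_pos (not_le.1 hy)]
        by_cases hH : |H₀| ≤ K
        · nlinarith [utail_nonneg K H₀, mul_le_mul_of_nonneg_left (hH.trans (not_le.1 hy).le) (abs_nonneg y),
            sq_abs y]
        · have hu' : utail K H₀ = H₀ ^ 2 := by unfold utail; rw [if_pos (not_le.1 hH)]
          nlinarith [sq_abs y, sq_abs H₀, sq_nonneg (|y| - |H₀|)]
    linarith

theorem sum_abs_le {x : Fin n → ℝ} {ρ : ℝ} (hρ : 0 ≤ ρ) (h : ∑ i, x i ^ 2 ≤ ρ ^ 2 * n) :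
    ∑ i, |x i| ≤ ρ * n := by
  have hc := sq_sum_le_card_mul_sum_sq (s := (univ : Finset (Fin n))) (f := fun i => |x i|)
  simp only [sq_abs, Finset.card_univ, Fintype.card_fin] at hc
  have h0 : (0 : ℝ) ≤ ρ * n := by positivity
  refine le_of_sq_le_sq (hc.trans ?_) h0
  rw [mul_pow, sq (n : ℝ), ← mul_assoc, mul_comm (n : ℝ)]
  exact mul_le_mul_of_nonneg_right h (Nat.cast_nonneg n)

theorem hrep_close (hn : 3 ≤ n) (ζ : Fin n → ℝ) {e' : ℝ} (hζ : ∑ i, ζ i ^ 2 ≤ 3 * n)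
    (hs : |∑ i, ζ i| ≤ n * e') (he' : 0 ≤ e') (he1 : e' ≤ 1) :
    ∑ i, (hrep ζ i - ζ i) ^ 2 ≤ (24 / ((n : ℝ) - 2) ^ 2 + 6 * e' ^ 2) * n ∧
      |∑ i, hrep ζ i| ≤ 4 * (n * e') ∧ ∑ i, hrep ζ i ^ 2 ≤ 24 * n := by
  have hn3 : (3 : ℝ) ≤ n := by exact_mod_cast hn
  set k := √((n : ℝ) / ((n : ℝ) - 2))
  set S := ∑ i, ζ i
  have hk0 : 0 ≤ k := sqrt_nonneg _
  have hk2 : k ^ 2 = (n : ℝ) / ((n : ℝ) - 2) := sq_sqrt (div_nonneg (by linarith) (by linarith))
  have hk3 : k ^ 2 ≤ 3 := by rw [hk2, div_le_iff₀ (by linarith)]; linarith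
  have hk1 : 1 ≤ k := by
    refine le_sqrt_of_sq_le ?_
    rw [one_pow, le_div_iff₀ (by linarith)]; linarith
  have hkd : (k - 1) ^ 2 ≤ 4 / ((n : ℝ) - 2) ^ 2 := by
    have h1 : k - 1 ≤ 2 / ((n : ℝ) - 2) := by
      have : k ^ 2 - 1 = 2 / ((n : ℝ) - 2) := by
        rw [hk2, div_sub_one (by linarith : (n : ℝ) - 2 ≠ 0)]; congr 1; ring
      nlinarith
    calc (k - 1) ^ 2 ≤ (2 / ((n : ℝ) - 2)) ^ 2 := pow_le_pow_left₀ (by linarith) h1 2
      _ = _ := by rw [div_pow]; norm_num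
  have hc0 : 0 ≤ ctr n * n ∧ ctr n * n ≤ 1 := by
    rw [ctr, div_mul_cancel₀ _ (by linarith : (n : ℝ) ≠ 0)]
    refine ⟨sub_nonneg.2 (Real.sqrt_le_one.2 ?_), sub_le_self _ (sqrt_nonneg _)⟩
    rw [div_le_one (by linarith)]; linarith
  have hcS : |ctr n * S| ≤ e' := by
    have hc : |ctr n| = ctr n := abs_of_nonneg (nonneg_of_mul_nonneg_left hc0.1 (by linarith))
    rw [abs_mul, hc]
    calc ctr n * |S| ≤ ctr n * (n * e') :=
          mul_le_mul_of_nonneg_left hs (nonneg_of_mul_nonneg_left hc0.1 (by linarith))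
      _ = ctr n * n * e' := by ring
      _ ≤ 1 * e' := mul_le_mul_of_nonneg_right hc0.2 he'
      _ = e' := one_mul _
  have hd : ∀ i, (hrep ζ i - ζ i) ^ 2 ≤ 2 * (4 / ((n : ℝ) - 2) ^ 2) * ζ i ^ 2 + 2 * (3 * e' ^ 2) := fun i => by
    have e : hrep ζ i - ζ i = (k - 1) * ζ i - k * (ctr n * S) := by simp only [hrep, k, S]; ring
    rw [e]
    have h2 : (k * (ctr n * S)) ^ 2 ≤ 3 * e' ^ 2 := by
      rw [mul_pow]
      exact mul_le_mul hk3 (sq_le_sq.2 (hcS.trans (le_abs_self e'))) (sq_nonneg _) (by norm_num)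
    nlinarith [mul_le_mul_of_nonneg_right hkd (sq_nonneg (ζ i)),
      sq_nonneg ((k - 1) * ζ i + k * (ctr n * S))]
  have h1 : ∑ i, (hrep ζ i - ζ i) ^ 2 ≤ (24 / ((n : ℝ) - 2) ^ 2 + 6 * e' ^ 2) * n := by
    refine (Finset.sum_le_sum fun i _ => hd i).trans ?_
    simp only [Finset.sum_add_distrib, ← Finset.mul_sum, Finset.sum_const, Finset.card_univ,
      Fintype.card_fin, nsmul_eq_mul]
    have := mul_le_mul_of_nonneg_left hζ (show (0 : ℝ) ≤ 2 * (4 / ((n : ℝ) - 2) ^ 2) by positivity)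
    have e : 24 / ((n : ℝ) - 2) ^ 2 = 3 * (2 * (4 / ((n : ℝ) - 2) ^ 2)) := by ring
    rw [e]; linarith
  refine ⟨h1, ?_, ?_⟩
  · have e : ∑ i, hrep ζ i = k * (1 - ctr n * n) * S := by
      simp only [hrep, k, S, ← Finset.mul_sum, Finset.sum_sub_distrib, Finset.sum_const,
        Finset.card_univ, Fintype.card_fin, nsmul_eq_mul]
      ring
    have hk4 : k ≤ 4 := by nlinarith
    rw [e, abs_mul, abs_mul, abs_of_nonneg hk0, abs_of_nonneg (by linarith [hc0.2] : 0 ≤ 1 - ctr n * n)]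
    calc k * (1 - ctr n * n) * |S| ≤ 4 * 1 * (n * e') :=
          mul_le_mul (mul_le_mul hk4 (by linarith [hc0.1]) (by linarith [hc0.2]) (by norm_num)) hs
            (abs_nonneg _) (by norm_num)
      _ = _ := by ring
  · -- crude bound
    have h4 : ∀ i, hrep ζ i ^ 2 ≤ 6 * ζ i ^ 2 + 6 * e' ^ 2 := fun i => by
      have e : hrep ζ i = k * (ζ i - ctr n * S) := rfl
      rw [e, mul_pow]
      have h5 : (ctr n * S) ^ 2 ≤ e' ^ 2 := sq_le_sq.2 (hcS.trans (le_abs_self e'))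
      have h6 : (ζ i - ctr n * S) ^ 2 ≤ 2 * ζ i ^ 2 + 2 * e' ^ 2 := by
        nlinarith [sq_nonneg (ζ i + ctr n * S)]
      nlinarith [mul_le_mul hk3 h6 (sq_nonneg _) (by norm_num : (0:ℝ) ≤ 3)]
    refine (Finset.sum_le_sum fun i _ => h4 i).trans ?_
    simp only [Finset.sum_add_distrib, ← Finset.mul_sum, Finset.sum_const, Finset.card_univ,
      Fintype.card_fin, nsmul_eq_mul]
    nlinarith [mul_le_mul_of_nonneg_left (pow_le_one₀ (n := 2) he' he1) (Nat.cast_nonneg (α := ℝ) n)]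

end Vale.Agent.P150.Beyond.Planted
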