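import Vale.Agent.P150.Fast.QuadTail
import Vale.Agent.P150.Beyond.Planted.Cert

/-!
# P150 beyond one half: the means of the site functions at planted fields

By a shift of both Gaussian variables the planted mean of an even function becomes a centred mean
weighted by `exp (-g/2) cosh`, where the envelopes integrate in closed form after a rotation.
-/

open MeasureTheory ProbabilityTheory Real Filter

namespace Vale.Agent.P150.Beyond.Planted

theorem shift_std (φ : ℝ → ℝ) (b : ℝ) :
    ∫ x, φ (x + b) ∂std = ∫ x, φ x * exp (b * x - b ^ 2 / 2) ∂std := by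
  simp only [std]
  rw [integral_gaussianReal_eq_integral_smul one_ne_zero,
    integral_gaussianReal_eq_integral_smul one_ne_zero,
    ← integral_add_right_eq_self (fun x => gaussianPDFReal 0 1 x • (φ x * exp (b * x - b ^ 2 / 2))) b]
  refine integral_congr_ae (Eventually.of_forall fun x => ?_)
  simp only [gaussianPDFReal, smul_eq_mul, sub_zero, NNReal.coe_one, mul_one]
  rw [show (√(2 * π))⁻¹ * exp (-(x + b) ^ 2 / 2) *
      (φ (x + b) * exp (b * (x + b) - b ^ 2 / 2)) =
      (√(2 * π))⁻¹ * (exp (-(x + b) ^ 2 / 2) * exp (b * (x + b) - b ^ 2 / 2)) * φ (x + b) by ring,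
    ← exp_add]
  congr 3
  ring

theorem integrable_exp_std (b : ℝ) : Integrable (fun x => exp (b * x)) std :=
  integrable_exp_mul_gaussianReal b

theorem integrable_poly_exp (b : ℝ) : Integrable (fun x => (1 + x ^ 2) * exp (b * x)) std := by
  refine Integrable.mono' (((integrable_exp_std b).add ((integrable_exp_std (b + 1)).const_mul 2)).add
    ((integrable_exp_std (b - 1)).const_mul 2)) (by fun_prop) (Eventually.of_forall fun x => ?_)
  have h1 : x ^ 2 ≤ 2 * (exp x + exp (-x)) := by
    rcases le_total 0 x with h | h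
    · nlinarith [quadratic_le_exp_of_nonneg h, exp_pos (-x)]
    · nlinarith [quadratic_le_exp_of_nonneg (neg_nonneg.2 h), exp_pos x]
  rw [Real.norm_of_nonneg (by positivity)]
  simp only [Pi.add_apply]
  rw [show (b + 1) * x = x + b * x by ring, show (b - 1) * x = -x + b * x by ring, exp_add, exp_add]
  nlinarith [mul_le_mul_of_nonneg_right h1 (exp_pos (b * x)).le]

theorem integrable_sq_std : Integrable (fun x => x ^ 2) std := by
  refine (integrable_poly_exp 0).mono' (by fun_prop) (Eventually.of_forall fun x => ?_)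
  simp

theorem gauss_decay {c : ℝ} (hc : 0 ≤ c) :
    ∫ x, exp (-(c * x ^ 2)) ∂std = 1 / √(1 + 2 * c) := by
  have h := (Fast.exp_sq_std (s := -c) (by linarith)).2
  simpa [neg_mul] using h

theorem gauss_decay_sq {c : ℝ} (hc : 0 ≤ c) :
    ∫ x, x ^ 2 * exp (-(c * x ^ 2)) ∂std = 1 / √(1 + 2 * c) / (1 + 2 * c) := by
  have hb : ∀ x : ℝ, exp (-(c * x ^ 2)) ≤ 1 := fun x =>
    exp_le_one_iff.2 (neg_nonpos.2 (by positivity))
  have hi0 : Integrable (fun x => exp (-(c * x ^ 2))) std :=
    (integrable_const (1 : ℝ)).mono' (by fun_prop) (Eventually.of_forall fun x => by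
      simpa [abs_of_pos (exp_pos _)] using hb x)
  have hi2 : Integrable (fun x => x ^ 2 * exp (-(c * x ^ 2))) std :=
    integrable_sq_std.mono' (by fun_prop) (Eventually.of_forall fun x => by
      rw [Real.norm_of_nonneg (by positivity)]
      exact mul_le_of_le_one_right (sq_nonneg x) (hb x))
  have h := stein (φ := fun x => x * exp (-(c * x ^ 2)))
    (φ' := fun x => exp (-(c * x ^ 2)) - 2 * c * (x ^ 2 * exp (-(c * x ^ 2))))
    (fun x => by
      refine ((hasDerivAt_id x).mul (((hasDerivAt_pow 2 x).const_mul c).neg.exp)).congr_deriv ?_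
      simp only [id_eq, Pi.neg_apply]
      ring)
    (integrable_id_std.abs.mono' (by fun_prop) (Eventually.of_forall fun x => by
      rw [Real.norm_eq_abs, abs_mul, abs_of_pos (exp_pos _)]
      exact mul_le_of_le_one_right (abs_nonneg x) (hb x)))
    (hi0.sub (hi2.const_mul _))
    (hi2.congr (Eventually.of_forall fun x => by ring))
  rw [integral_sub hi0 (hi2.const_mul _), integral_const_mul, gauss_decay hc] at h
  have e : ∫ x, x ^ 2 * exp (-(c * x ^ 2)) ∂std = ∫ x, x * (x * exp (-(c * x ^ 2))) ∂std :=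
    integral_congr_ae (Eventually.of_forall fun x => by ring)
  rw [eq_div_iff (by positivity)]
  linarith

/-- The pair of variables of a site. -/
noncomputable abbrev std2 : Measure (ℝ × ℝ) := std.prod std

/-- The linear field of a site. -/
noncomputable def lfield (β σ : ℝ) (q : ℝ × ℝ) : ℝ := β * q.1 + √σ * q.2

/-- The planted field of a site. -/
noncomputable def pfield (β σ : ℝ) (q : ℝ × ℝ) : ℝ := β * (β + q.1) + σ + √σ * q.2

theorem rotation_std (θ : ℝ) : MeasurePreserving (ContinuousLinearMap.rotation (E := ℝ) θ) std2 std2 :=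
  ⟨(ContinuousLinearMap.rotation (E := ℝ) θ).measurable, by
    simp only [std2, std]
    exact IsGaussian.map_rotation_eq_self (by simp) θ⟩

theorem integrable_sq_fst : Integrable (fun q : ℝ × ℝ => q.1 ^ 2) std2 :=
  (measurePreserving_fst (μ := std) (ν := std)).integrable_comp_of_integrable integrable_sq_std

/-- The two envelope integrals. -/
theorem env_integrals {β σ k : ℝ} (hβ : 0 < β) (hσ : 0 ≤ σ) (hk : 0 ≤ k) :
    ∫ q, exp (-(k * lfield β σ q ^ 2)) ∂std2 = gfac k (β ^ 2 + σ) ∧
    ∫ q, q.1 ^ 2 * exp (-(k * lfield β σ q ^ 2)) ∂std2 =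
      gfac k (β ^ 2 + σ) - 2 * k * β ^ 2 * gfac k (β ^ 2 + σ) ^ 3 := by
  set g := β ^ 2 + σ with hgdef
  have hg : 0 < g := by positivity
  have hsg : 0 < √g := sqrt_pos.2 hg
  have hs2 := sq_sqrt hg.le
  set θ := arccos (β / √g) with hθ
  have hle : β / √g ≤ 1 := by
    rw [div_le_one hsg]
    exact le_sqrt_of_sq_le (by rw [hgdef]; linarith)
  have hge : -1 ≤ β / √g := by
    have : 0 ≤ β / √g := by positivity
    linarith
  have hcos : cos θ = β / √g := cos_arccos hge hle
  have hsin : sin θ = √σ / √g := by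
    rw [hθ, sin_arccos, ← sqrt_div hσ]
    congr 1
    rw [div_pow, hs2]
    field_simp
    rw [hgdef]; ring
  have hc0 : 0 ≤ k * g := by positivity
  have hx : 1 / √(1 + 2 * (k * g)) = gfac k g := by
    rw [gfac]; congr 3; ring
  have hfld : ∀ q : ℝ × ℝ,
      lfield β σ q = √g * (ContinuousLinearMap.rotation (E := ℝ) θ q).1 := fun q => by
    simp only [ContinuousLinearMap.rotation_apply, smul_eq_mul, hcos, hsin, lfield]
    field_simp
  have hfst : ∀ q : ℝ × ℝ, q.1 =
      β / √g * (ContinuousLinearMap.rotation (E := ℝ) θ q).1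
        - √σ / √g * (ContinuousLinearMap.rotation (E := ℝ) θ q).2 := fun q => by
    simp only [ContinuousLinearMap.rotation_apply, smul_eq_mul, hcos, hsin]
    field_simp
    linear_combination q.1 * (hs2.trans hgdef) - q.1 * sq_sqrt hσ
  have hb : ∀ x : ℝ, exp (-(k * g * x ^ 2)) ≤ 1 := fun x =>
    exp_le_one_iff.2 (neg_nonpos.2 (by positivity))
  have key : ∀ φ : ℝ × ℝ → ℝ, Measurable φ →
      ∫ q, φ (ContinuousLinearMap.rotation (E := ℝ) θ q) ∂std2 = ∫ q, φ q ∂std2 := fun φ hφ => by
    rw [← integral_map (rotation_std θ).measurable.aemeasurable hφ.aestronglyMeasurable,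
      (rotation_std θ).map_eq]
  constructor
  · calc ∫ q, exp (-(k * lfield β σ q ^ 2)) ∂std2
        = ∫ q, (fun p : ℝ × ℝ => exp (-(k * g * p.1 ^ 2)))
            (ContinuousLinearMap.rotation (E := ℝ) θ q) ∂std2 :=
          integral_congr_ae (Eventually.of_forall fun q => by
            simp only [hfld q, mul_pow, hs2]; congr 2; ring)
      _ = ∫ q, exp (-(k * g * q.1 ^ 2)) * 1 ∂std2 := by
          refine (key (fun p : ℝ × ℝ => exp (-(k * g * p.1 ^ 2))) (by fun_prop)).trans ?_
          simp only [mul_one]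
      _ = _ := by
          rw [integral_prod_mul (fun x => exp (-(k * g * x ^ 2))) (fun _ : ℝ => (1 : ℝ)),
            gauss_decay hc0, hx]
          simp
  · set A := fun x : ℝ => exp (-(k * g * x ^ 2))
    have hA : Integrable A std := (integrable_const (1 : ℝ)).mono' (by fun_prop)
      (Eventually.of_forall fun x => by simpa [A, abs_of_pos (exp_pos _)] using hb x)
    have hA1 : Integrable (fun x => x * A x) std := integrable_id_std.abs.mono' (by fun_prop)
      (Eventually.of_forall fun x => by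
        rw [Real.norm_eq_abs, abs_mul]
        exact mul_le_of_le_one_right (abs_nonneg x) (by simpa [A, abs_of_pos (exp_pos _)] using hb x))
    have hA2 : Integrable (fun x => x ^ 2 * A x) std := integrable_sq_std.mono' (by fun_prop)
      (Eventually.of_forall fun x => by
        rw [Real.norm_of_nonneg (by positivity)]
        exact mul_le_of_le_one_right (sq_nonneg x) (hb x))
    have i1 : Integrable (fun q : ℝ × ℝ => (q.1 ^ 2 * A q.1) * 1) std2 :=
      hA2.mul_prod (integrable_const 1)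
    have i2 : Integrable (fun q : ℝ × ℝ => (q.1 * A q.1) * q.2) std2 :=
      hA1.mul_prod integrable_id_std
    have i3 : Integrable (fun q : ℝ × ℝ => A q.1 * q.2 ^ 2) std2 :=
      hA.mul_prod integrable_sq_std
    have hsq : ∫ x, x ^ 2 ∂std = 1 := by
      have := gauss_decay_sq (le_refl (0 : ℝ))
      simpa using this
    have hid : ∫ x, x ∂std = 0 := by simp [std]
    calc ∫ q, q.1 ^ 2 * exp (-(k * lfield β σ q ^ 2)) ∂std2
        = ∫ q, (fun p : ℝ × ℝ => (β ^ 2 / g) * ((p.1 ^ 2 * A p.1) * 1)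
            - (2 * β * √σ / g) * ((p.1 * A p.1) * p.2) + (σ / g) * (A p.1 * p.2 ^ 2))
            (ContinuousLinearMap.rotation (E := ℝ) θ q) ∂std2 :=
          integral_congr_ae (Eventually.of_forall fun q => by
            simp only [A, hfld q, mul_pow, hs2]
            rw [hfst q]
            set a := (ContinuousLinearMap.rotation (E := ℝ) θ q).1
            set b := (ContinuousLinearMap.rotation (E := ℝ) θ q).2
            rw [show k * g * a ^ 2 = k * (g * a ^ 2) by ring]
            rw [show (β / √g * a - √σ / √g * b) ^ 2 =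
              (β ^ 2 * a ^ 2 - 2 * β * √σ * (a * b) + √σ ^ 2 * b ^ 2) / √g ^ 2 by ring, hs2,
              sq_sqrt hσ]
            ring)
      _ = ∫ q, ((β ^ 2 / g) * ((q.1 ^ 2 * A q.1) * 1) - (2 * β * √σ / g) * ((q.1 * A q.1) * q.2)
            + (σ / g) * (A q.1 * q.2 ^ 2)) ∂std2 :=
          key (fun p : ℝ × ℝ => (β ^ 2 / g) * ((p.1 ^ 2 * A p.1) * 1)
            - (2 * β * √σ / g) * ((p.1 * A p.1) * p.2) + (σ / g) * (A p.1 * p.2 ^ 2))
            (by simp only [A]; fun_prop)
      _ = _ := by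
          have j1 : Integrable (fun q : ℝ × ℝ => (β ^ 2 / g) * ((q.1 ^ 2 * A q.1) * 1)) std2 :=
            i1.const_mul _
          have j2 : Integrable (fun q : ℝ × ℝ => (2 * β * √σ / g) * ((q.1 * A q.1) * q.2)) std2 :=
            i2.const_mul _
          have j12 : Integrable (fun q : ℝ × ℝ => (β ^ 2 / g) * ((q.1 ^ 2 * A q.1) * 1)
              - (2 * β * √σ / g) * ((q.1 * A q.1) * q.2)) std2 := j1.sub j2
          rw [integral_add j12 (i3.const_mul _),
            integral_sub j1 j2, integral_const_mul, integral_const_mul,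
            integral_const_mul, integral_prod_mul (fun x => x ^ 2 * A x) (fun _ : ℝ => (1 : ℝ)),
            integral_prod_mul (fun x => x * A x) (fun x : ℝ => x),
            integral_prod_mul A (fun x : ℝ => x ^ 2)]
          simp only [A, hid, hsq, gauss_decay hc0, gauss_decay_sq hc0, hx, mul_zero, sub_zero]
          simp only [integral_const, probReal_univ, one_smul, mul_one]
          have h1 := gfac_sq hk hg.le
          have h2 : 1 + 2 * (k * g) ≠ 0 := by positivity
          rw [show gfac k g ^ 3 = gfac k g * gfac k g ^ 2 by ring,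
            show gfac k g ^ 2 = 1 / (1 + 2 * (k * g)) by
              rw [eq_div_iff h2]; linarith [h1]]
          field_simp
          rw [hgdef]; ring

theorem tilt_weight (β σ : ℝ) (hσ : 0 ≤ σ) (q : ℝ × ℝ) :
    exp (√σ * q.2 - σ / 2) * exp (β * q.1 - β ^ 2 / 2) =
      exp (-((β ^ 2 + σ) / 2)) * exp (lfield β σ q) := by
  rw [← exp_add, ← exp_add]
  congr 1
  simp only [lfield]
  ring

/-- The shift of both variables, and symmetrisation. -/
theorem tilt_even {β σ : ℝ} (hσ : 0 ≤ σ) {ψ : ℝ → ℝ → ℝ}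
    (hψ : Measurable fun p : ℝ × ℝ => ψ p.1 p.2) (heven : ∀ x h, ψ (-x) (-h) = ψ x h) {C : ℝ}
    (hC : ∀ x h, |ψ x h| ≤ C * (1 + x ^ 2)) :
    Integrable (fun q : ℝ × ℝ => ψ q.1 (lfield β σ q) * cosh (lfield β σ q)) std2 ∧
    ∫ q, ψ (β + q.1) (pfield β σ q) ∂std2 =
      exp (-((β ^ 2 + σ) / 2)) * ∫ q, ψ q.1 (lfield β σ q) * cosh (lfield β σ q) ∂std2 := by
  have hC0 : 0 ≤ C := by
    have := (abs_nonneg _).trans (hC 0 0)
    linarith
  set f : ℝ × ℝ → ℝ := fun q => ψ q.1 (lfield β σ q) * exp (lfield β σ q)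
  have hlm : Measurable (lfield β σ) := by unfold lfield; fun_prop
  have hfm : Measurable f := (hψ.comp (measurable_fst.prodMk hlm)).mul (measurable_exp.comp hlm)
  have hfi : Integrable f std2 := by
    refine (((integrable_poly_exp β).mul_prod (integrable_exp_std √σ)).const_mul C).mono'
      hfm.aestronglyMeasurable (Eventually.of_forall fun q => ?_)
    simp only [f, Real.norm_eq_abs, abs_mul, abs_of_pos (exp_pos _), lfield, exp_add]
    calc |ψ q.1 (β * q.1 + √σ * q.2)| * (exp (β * q.1) * exp (√σ * q.2))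
        ≤ C * (1 + q.1 ^ 2) * (exp (β * q.1) * exp (√σ * q.2)) :=
          mul_le_mul_of_nonneg_right (hC _ _) (by positivity)
      _ = _ := by ring
  have hneg : MeasurePreserving (fun q : ℝ × ℝ => (-q.1, -q.2)) std2 std2 :=
    MeasurePreserving.prod ⟨measurable_neg, by rw [std, gaussianReal_map_neg, neg_zero]⟩
      ⟨measurable_neg, by rw [std, gaussianReal_map_neg, neg_zero]⟩
  set f' : ℝ × ℝ → ℝ := fun q => ψ q.1 (lfield β σ q) * exp (-lfield β σ q)
  have hf' : f' = fun q => f (-q.1, -q.2) := by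
    funext q
    have e : lfield β σ (-q.1, -q.2) = -lfield β σ q := by simp only [lfield]; ring
    simp only [f, f', e, heven]
  have hfi' : Integrable f' std2 := hf' ▸ hneg.integrable_comp_of_integrable hfi
  have hint' : ∫ q, f' q ∂std2 = ∫ q, f q ∂std2 := by
    rw [hf', ← integral_map hneg.measurable.aemeasurable hfm.aestronglyMeasurable, hneg.map_eq]
  have hcosh : (fun q => ψ q.1 (lfield β σ q) * cosh (lfield β σ q)) = fun q => (f q + f' q) / 2 := by
    funext q; simp only [f, f', cosh_eq]; ring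
  refine ⟨hcosh ▸ (hfi.add hfi').div_const 2, ?_⟩
  rw [hcosh, integral_div, integral_add hfi hfi', hint', add_self_div_two]
  -- the shift, one variable at a time
  have hpm : Measurable fun q : ℝ × ℝ => ψ (β + q.1) (pfield β σ q) := by
    refine hψ.comp (Measurable.prodMk (by fun_prop) ?_)
    fun_prop
  have hpi : Integrable (fun q : ℝ × ℝ => ψ (β + q.1) (pfield β σ q)) std2 := by
    refine ((((integrable_const (1 : ℝ)).add ((integrable_sq_std.const_mul 2).add
      (integrable_const (2 * β ^ 2)))).mul_prod (integrable_const (1 : ℝ))).const_mul C).mono'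
      hpm.aestronglyMeasurable (Eventually.of_forall fun q => ?_)
    rw [Real.norm_eq_abs]
    refine (hC _ _).trans (mul_le_mul_of_nonneg_left ?_ hC0)
    simp only [Pi.add_apply, mul_one]
    nlinarith [sq_nonneg (β - q.1)]
  rw [integral_prod _ hpi, ← integral_const_mul, integral_prod _ (hfi.const_mul _)]
  have hin : ∀ ζ : ℝ, ∫ z, ψ (β + ζ) (pfield β σ (ζ, z)) ∂std =
      ∫ z, ψ (β + ζ) (β * (β + ζ) + √σ * z) * exp (√σ * z - σ / 2) ∂std := fun ζ => by
    have h := shift_std (fun z => ψ (β + ζ) (β * (β + ζ) + √σ * z)) (√σ)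
    rw [sq_sqrt hσ] at h
    rw [← h]
    refine integral_congr_ae (Eventually.of_forall fun z => ?_)
    simp only [pfield, mul_add]
    rw [mul_self_sqrt hσ]
    congr 1
    ring
  simp only [hin]
  have h := shift_std (fun x => ∫ z, ψ x (β * x + √σ * z) * exp (√σ * z - σ / 2) ∂std) β
  simp only [add_comm _ β] at h
  rw [h]
  refine integral_congr_ae (Eventually.of_forall fun x => ?_)
  simp only [← integral_mul_const]
  refine integral_congr_ae (Eventually.of_forall fun z => ?_)
  simp only [f]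
  rw [mul_assoc, tilt_weight β σ hσ (x, z)]
  simp only [lfield]
  ring

/-- The weight of a site: `1 / ((1 - γ) cosh^2 - a - δ)`. -/
noncomputable def fw (a h : ℝ) : ℝ :=
  1 / ((1 - 1 / 10000) * cosh h ^ 2 - (a + 1 / 10000))

theorem fw_den {a : ℝ} (ha : a ≤ 1 / 2) (h : ℝ) :
    2 / 5 * cosh h ^ 2 ≤ (1 - 1 / 10000) * cosh h ^ 2 - (a + 1 / 10000) := by
  nlinarith [one_le_cosh h, sq_nonneg (cosh h - 1)]

theorem fw_pos {a : ℝ} (ha : a ≤ 1 / 2) (h : ℝ) : 0 < fw a h :=
  one_div_pos.2 (lt_of_lt_of_le (by nlinarith [one_le_cosh h]) (fw_den ha h))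

theorem fw_le {a : ℝ} (ha : a ≤ 1 / 2) (h : ℝ) : fw a h ≤ 5 / 2 := by
  rw [fw, div_le_iff₀ (lt_of_lt_of_le (by nlinarith [one_le_cosh h]) (fw_den ha h))]
  nlinarith [one_le_cosh h, fw_den ha h]

theorem fw_even (a h : ℝ) : fw a (-h) = fw a h := by simp [fw]

theorem fw_cosh {a c0 al k : ℝ} (ha0 : 0 < a) (ha : a ≤ 1 / 2) (u : ℝ)
    (h : cosh u ≤ (cosh u ^ 2 - a) * (c0 + al * exp (-(k * u ^ 2)))) :
    fw a u * cosh u ≤ 1001 / 1000 * (c0 + al * exp (-(k * u ^ 2))) := by
  have hd := fw_den ha u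
  have hC := one_le_cosh u
  have hd0 : 0 < (1 - 1 / 10000) * cosh u ^ 2 - (a + 1 / 10000) := lt_of_lt_of_le (by nlinarith) hd
  have hE : 0 ≤ c0 + al * exp (-(k * u ^ 2)) :=
    nonneg_of_mul_nonneg_right (le_trans (by linarith) h) (by nlinarith)
  rw [fw, one_div_mul_eq_div, div_le_iff₀ hd0]
  refine h.trans ?_
  nlinarith [mul_le_mul_of_nonneg_right (show cosh u ^ 2 - a ≤
    1001 / 1000 * ((1 - 1 / 10000) * cosh u ^ 2 - (a + 1 / 10000)) by nlinarith) hE]

theorem fw_tanh_cosh {a c1 k1 : ℝ} (ha0 : 0 < a) (ha : a ≤ 1 / 2) (u : ℝ)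
    (h : cosh u ^ 2 - 1 ≤ (cosh u ^ 2 - a) * cosh u * (c1 * (1 - exp (-(k1 * u ^ 2))))) :
    tanh u ^ 2 * fw a u * cosh u ≤ 1001 / 1000 * (c1 * (1 - exp (-(k1 * u ^ 2)))) := by
  have hd := fw_den ha u
  have hC := one_le_cosh u
  have hC0 := cosh_pos u
  have hd0 : 0 < (1 - 1 / 10000) * cosh u ^ 2 - (a + 1 / 10000) := lt_of_lt_of_le (by nlinarith) hd
  have hE : 0 ≤ c1 * (1 - exp (-(k1 * u ^ 2))) :=
    nonneg_of_mul_nonneg_right (le_trans (by nlinarith) h) (mul_pos (by nlinarith) hC0)
  have e : tanh u ^ 2 * fw a u * cosh u = (cosh u ^ 2 - 1) / cosh u /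
      ((1 - 1 / 10000) * cosh u ^ 2 - (a + 1 / 10000)) := by
    rw [tanh_eq_sinh_div_cosh, div_pow, fw, sinh_sq]
    field_simp
  rw [e, div_le_iff₀ hd0, div_le_iff₀ hC0]
  refine h.trans ?_
  nlinarith [mul_le_mul_of_nonneg_right (show cosh u ^ 2 - a ≤
    1001 / 1000 * ((1 - 1 / 10000) * cosh u ^ 2 - (a + 1 / 10000)) by nlinarith)
    (mul_nonneg hC0.le hE)]

theorem measurable_fw (a : ℝ) : Measurable (fw a) := by unfold fw; fun_prop

theorem measurable_tanh' : Measurable tanh := by
  have : tanh = fun x => sinh x / cosh x := funext tanh_eq_sinh_div_cosh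
  rw [this]; fun_prop

/-- The two means at planted fields. -/
theorem planted_means {β σ a c0 al k c1 k1 : ℝ} (hβ : 0 < β) (hσ : 0 ≤ σ) (ha : a ≤ 1 / 2)
    (hE : EnvOK a c0 al k c1 k1) :
    ∫ q, fw a (pfield β σ q) ∂std2 ≤
        1001 / 1000 * (exp (-((β ^ 2 + σ) / 2)) * (c0 + al * gfac k (β ^ 2 + σ))) ∧
    ∫ q, (2 * β ^ 2 * tanh (pfield β σ q) ^ 2 + (β + q.1) ^ 2) * fw a (pfield β σ q) ∂std2 ≤
        1001 / 1000 * certT c0 al k c1 k1 (β ^ 2) (β ^ 2 + σ) := by
  obtain ⟨⟨ha3, -⟩, ⟨-, -, hk, hc1, hk1⟩, e1, e2⟩ := hE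
  have ha0 : 0 < a := by linarith
  obtain ⟨I0, I2⟩ := env_integrals hβ hσ hk
  obtain ⟨J0, -⟩ := env_integrals hβ hσ hk1
  have hlm : Measurable (lfield β σ) := by unfold lfield; fun_prop
  have hb : ∀ κ, 0 ≤ κ → ∀ q, exp (-(κ * lfield β σ q ^ 2)) ≤ 1 := fun κ hκ q =>
    exp_le_one_iff.2 (neg_nonpos.2 (by positivity))
  have iE : ∀ κ, 0 ≤ κ → Integrable (fun q => exp (-(κ * lfield β σ q ^ 2))) std2 := fun κ hκ =>
    (integrable_const (1 : ℝ)).mono' (by fun_prop) (Eventually.of_forall fun q => by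
      simpa [abs_of_pos (exp_pos _)] using hb κ hκ q)
  have iE2 : Integrable (fun q : ℝ × ℝ => q.1 ^ 2 * exp (-(k * lfield β σ q ^ 2))) std2 :=
    integrable_sq_fst.mono' (by fun_prop) (Eventually.of_forall fun q => by
      rw [Real.norm_of_nonneg (by positivity)]
      exact mul_le_of_le_one_right (sq_nonneg _) (hb k hk q))
  constructor
  · obtain ⟨hi, he⟩ := tilt_even (β := β) hσ (ψ := fun _ h => fw a h)
      ((measurable_fw a).comp measurable_snd) (fun _ h => fw_even a h) (C := 5 / 2)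
      (fun x h => by
        rw [abs_of_pos (fw_pos ha h)]
        nlinarith [fw_le ha h, sq_nonneg x])
    rw [he, ← mul_assoc, mul_comm (1001 / 1000 : ℝ), mul_assoc]
    refine mul_le_mul_of_nonneg_left ?_ (exp_pos _).le
    refine (integral_mono hi (((integrable_const c0).add ((iE k hk).const_mul al)).const_mul _)
      fun q => fw_cosh ha0 ha _ (e1 _)).trans (le_of_eq ?_)
    rw [integral_const_mul, integral_add' (integrable_const c0) ((iE k hk).const_mul al),
      integral_const_mul, I0]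
    simp
  · obtain ⟨hi, he⟩ := tilt_even (β := β) hσ
      (ψ := fun x h => (2 * β ^ 2 * tanh h ^ 2 + x ^ 2) * fw a h)
      (by
        have := measurable_fw a
        have := measurable_tanh'
        fun_prop)
      (fun x h => by simp [tanh_neg, fw_even]) (C := 5 / 2 * (2 * β ^ 2 + 1))
      (fun x h => by
        have hp := fw_pos ha h
        have ht := tanh_sq_lt_one h
        rw [abs_of_nonneg (by positivity)]
        refine (mul_le_mul_of_nonneg_left (fw_le ha h) (by positivity)).trans ?_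
        nlinarith [sq_nonneg x, sq_nonneg β, mul_nonneg (sq_nonneg β) (sub_nonneg.2 ht.le),
          mul_nonneg (sq_nonneg β) (sq_nonneg x)])
    rw [he]
    have i1 := ((iE k1 hk1).const_mul c1).neg
    set Φ : ℝ × ℝ → ℝ := fun q => 1001 / 1000 *
      (2 * β ^ 2 * c1 - 2 * β ^ 2 * c1 * exp (-(k1 * lfield β σ q ^ 2)) +
        (c0 * q.1 ^ 2 + al * (q.1 ^ 2 * exp (-(k * lfield β σ q ^ 2)))))
    have hΦ : Integrable Φ std2 :=
      ((((integrable_const _).sub ((iE k1 hk1).const_mul _)).add
        ((integrable_sq_fst.const_mul c0).add (iE2.const_mul al)))).const_mul _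
    have hle : ∫ q, (2 * β ^ 2 * tanh (lfield β σ q) ^ 2 + q.1 ^ 2) * fw a (lfield β σ q) *
        cosh (lfield β σ q) ∂std2 ≤ ∫ q, Φ q ∂std2 := integral_mono hi hΦ fun q => by
      have p1 := mul_le_mul_of_nonneg_left (fw_tanh_cosh ha0 ha _ (e2 (lfield β σ q)))
        (show 0 ≤ 2 * β ^ 2 by positivity)
      have p2 := mul_le_mul_of_nonneg_left (fw_cosh ha0 ha _ (e1 (lfield β σ q))) (sq_nonneg q.1)
      simp only [Φ]
      linarith
    refine (mul_le_mul_of_nonneg_left hle (exp_pos _).le).trans (le_of_eq ?_)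
    have hsq : ∫ q : ℝ × ℝ, q.1 ^ 2 ∂std2 = 1 := by
      have h := integral_prod_mul (μ := std) (ν := std) (fun x : ℝ => x ^ 2) (fun _ : ℝ => (1 : ℝ))
      have h2 := gauss_decay_sq (le_refl (0 : ℝ))
      simp only [mul_one, integral_const, probReal_univ, one_smul] at h
      simp only [zero_mul, neg_zero, exp_zero, mul_one, mul_zero, add_zero, sqrt_one, div_one] at h2
      rw [h, h2]
    have q1 : Integrable (fun q : ℝ × ℝ => 2 * β ^ 2 * c1 -
        2 * β ^ 2 * c1 * exp (-(k1 * lfield β σ q ^ 2))) std2 :=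
      (integrable_const _).sub ((iE k1 hk1).const_mul _)
    have q2 : Integrable (fun q : ℝ × ℝ => c0 * q.1 ^ 2 +
        al * (q.1 ^ 2 * exp (-(k * lfield β σ q ^ 2)))) std2 :=
      (integrable_sq_fst.const_mul c0).add (iE2.const_mul al)
    simp only [Φ]
    rw [integral_const_mul, integral_add q1 q2,
      integral_sub (integrable_const _) ((iE k1 hk1).const_mul _),
      integral_add (integrable_sq_fst.const_mul c0) (iE2.const_mul al)]
    simp only [integral_const_mul]
    rw [J0, I2, hsq, certT]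
    simp only [integral_const, probReal_univ, one_smul]
    ring

end Vale.Agent.P150.Beyond.Planted
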