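import Vale.Agent.P150.Beyond.Planted.Integrals

/-!
# P150 beyond one half: the site averages at a typical sample

All the averages entering the criterion are sums of bounded functions of independent sites, after
truncation at a level `K`; the truncated tails are controlled by exponential moments.
-/

open MeasureTheory ProbabilityTheory Real Filter Finset

namespace Vale.Agent.P150.Beyond.Planted

/-- The exponential Markov bound for independent identically distributed terms. -/
theorem iid_tail {α : Type*} [MeasurableSpace α] (ν : Measure α) [IsProbabilityMeasure ν] (n : ℕ)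
    (f : α → ℝ) (s q c : ℝ) (hs : 0 ≤ s) (hi : Integrable (fun x => exp (s * f x)) ν)
    (hq : ∫ x, exp (s * f x) ∂ν ≤ exp q) :
    (Measure.pi fun _ : Fin n => ν).real {x | n * c ≤ ∑ i, f (x i)} ≤ exp (-(n * (s * c - q))) := by
  set μ := Measure.pi fun _ : Fin n => ν
  set F : (Fin n → α) → ℝ := fun x => ∏ i, exp (s * f (x i))
  have hF : ∀ x, F x = exp (s * ∑ i, f (x i)) := fun x => by
    simp only [F, ← exp_sum, Finset.mul_sum]
  have hFi : Integrable F μ := Integrable.fintype_prod (f := fun _ x => exp (s * f x)) fun _ => hi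
  have h1 := mul_meas_ge_le_integral_of_nonneg
    (Eventually.of_forall fun x => by rw [hF x]; exact (exp_pos _).le) hFi (exp (s * (n * c)))
  have hint : ∫ x, F x ∂μ ≤ exp (n * q) := by
    rw [integral_fintype_prod_eq_prod (𝕜 := ℝ) (f := fun _ x => exp (s * f x)),
      Finset.prod_const, Finset.card_univ, Fintype.card_fin, exp_nat_mul]
    exact pow_le_pow_left₀ (integral_nonneg fun x => (exp_pos _).le) hq n
  have h2 : μ.real {x | n * c ≤ ∑ i, f (x i)} ≤ μ.real {x | exp (s * (n * c)) ≤ F x} :=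
    measureReal_mono fun x hx => by
      simp only [Set.mem_ofPred_eq, hF x, exp_le_exp]
      exact mul_le_mul_of_nonneg_left hx hs
  refine h2.trans ?_
  rw [show -((n : ℝ) * (s * c - q)) = n * q - s * (n * c) by ring, exp_sub, le_div_iff₀' (exp_pos _)]
  exact h1.trans hint

/-- A uniform rate for bounded functions. -/
theorem bdd_tail {α : Type*} [MeasurableSpace α] (ν : Measure α) [IsProbabilityMeasure ν] {B e : ℝ}
    (hB : 0 < B) (he : 0 < e) :
    ∃ c : ℝ, 0 < c ∧ ∀ (f : α → ℝ), Measurable f → (∀ x, |f x| ≤ B) → ∀ m : ℝ, ∫ x, f x ∂ν ≤ m →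
      ∀ n : ℕ, (Measure.pi fun _ : Fin n => ν).real {x | n * (m + e) ≤ ∑ i, f (x i)} ≤
        exp (-(c * n)) := by
  set s := min (1 / B) (e / (2 * B ^ 2))
  have hs : 0 < s := lt_min (by positivity) (by positivity)
  refine ⟨s * e / 2, by positivity, fun f hf hfb m hm n => ?_⟩
  have hs1 : ∀ x, |s * f x| ≤ 1 := fun x => by
    rw [abs_mul, abs_of_pos hs]
    calc s * |f x| ≤ 1 / B * B := mul_le_mul (min_le_left _ _) (hfb x) (abs_nonneg _) (by positivity)
      _ = 1 := by field_simp
  have hfi : Integrable f ν := (integrable_const B).mono' hf.aestronglyMeasurable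
    (Eventually.of_forall fun x => hfb x)
  have hei : Integrable (fun x => exp (s * f x)) ν :=
    (integrable_const (exp 1)).mono' (hf.const_mul s).exp.aestronglyMeasurable
      (Eventually.of_forall fun x => by
        rw [Real.norm_of_nonneg (exp_pos _).le, exp_le_exp]
        exact (le_abs_self _).trans (hs1 x))
  have hpt : ∀ x, exp (s * f x) ≤ (1 + s * (s * B ^ 2)) + s * f x := fun x => by
    have := (abs_le.1 (Real.abs_exp_sub_one_sub_id_le (hs1 x))).2
    have h3 : (s * f x) ^ 2 ≤ s * (s * B ^ 2) := by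
      rw [mul_pow, sq s, mul_assoc]
      refine mul_le_mul_of_nonneg_left (mul_le_mul_of_nonneg_left ?_ hs.le) hs.le
      exact sq_le_sq.2 ((hfb x).trans (le_abs_self B))
    linarith
  have hq : ∫ x, exp (s * f x) ∂ν ≤ exp (s * (m + e / 2)) := by
    refine (integral_mono hei ((integrable_const _).add (hfi.const_mul s)) hpt).trans ?_
    rw [integral_add' (integrable_const _) (hfi.const_mul s), integral_const_mul]
    simp only [integral_const, probReal_univ, one_smul]
    have h4 : s * B ^ 2 ≤ e / 2 := by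
      calc s * B ^ 2 ≤ e / (2 * B ^ 2) * B ^ 2 :=
            mul_le_mul_of_nonneg_right (min_le_right _ _) (sq_nonneg B)
        _ = e / 2 := by field_simp
    have h5 := mul_le_mul_of_nonneg_left (add_le_add hm h4) hs.le
    linarith [add_one_le_exp (s * (m + e / 2))]
  refine (iid_tail ν n f s _ (m + e) hs.le hei hq).trans (le_of_eq ?_)
  congr 1
  ring

/-- The square beyond the level `K`. -/
noncomputable def utail (K x : ℝ) : ℝ := if K < |x| then x ^ 2 else 0

theorem utail_nonneg (K x : ℝ) : 0 ≤ utail K x := by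
  unfold utail; split_ifs <;> positivity

theorem utail_tail {e : ℝ} (he : 0 < e) :
    ∃ K : ℝ, 1 ≤ K ∧ ∃ c : ℝ, 0 < c ∧ ∀ n : ℕ,
      (stdPi (Fin n)).real {x | n * e ≤ ∑ i, utail K (x i)} ≤ exp (-(c * n)) := by
  obtain ⟨hi, hI⟩ := Fast.exp_sq_std (s := 5 / 16) (by norm_num)
  set D := 16 * (1 / √(1 - 2 * (5 / 16 : ℝ)))
  have hD : 0 < D := by
    have : (0 : ℝ) < 1 - 2 * (5 / 16) := by norm_num
    positivity
  set K := max 1 √(8 * D / e)
  have hK : 1 ≤ K := le_max_left _ _
  have hK2 : 8 * D / e ≤ K ^ 2 := by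
    rw [← sq_sqrt (show 0 ≤ 8 * D / e by positivity)]
    exact pow_le_pow_left₀ (sqrt_nonneg _) (le_max_right _ _) 2
  refine ⟨K, hK, e / 8, by positivity, fun n => ?_⟩
  have hpt : ∀ x : ℝ, exp (1 / 4 * utail K x) ≤ 1 + 16 / K ^ 2 * exp (5 / 16 * x ^ 2) := fun x => by
    have hp : 0 ≤ 16 / K ^ 2 * exp (5 / 16 * x ^ 2) := by positivity
    unfold utail
    split_ifs with h
    · have h1 : K ^ 2 ≤ x ^ 2 := sq_le_sq.2 (by rw [abs_of_nonneg (by linarith)]; exact h.le)
      have h2 : x ^ 2 ≤ 16 * exp (1 / 16 * x ^ 2) := by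
        linarith [add_one_le_exp (1 / 16 * x ^ 2)]
      have h3 : exp (5 / 16 * x ^ 2) = exp (1 / 16 * x ^ 2) * exp (1 / 4 * x ^ 2) := by
        rw [← exp_add]; congr 1; ring
      have h4 : exp (1 / 4 * x ^ 2) ≤ 16 / K ^ 2 * exp (5 / 16 * x ^ 2) := by
        rw [h3, show 16 / K ^ 2 * (exp (1 / 16 * x ^ 2) * exp (1 / 4 * x ^ 2)) =
          16 * exp (1 / 16 * x ^ 2) * exp (1 / 4 * x ^ 2) / K ^ 2 by ring, le_div_iff₀ (by positivity),
          mul_comm]
        exact mul_le_mul_of_nonneg_right (h1.trans h2) (exp_pos _).le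
      linarith
    · rw [mul_zero, exp_zero]; linarith
  have hm : Measurable fun x => exp (1 / 4 * utail K x) := by
    refine ((Measurable.ite ?_ (by fun_prop) measurable_const).const_mul _).exp
    exact measurableSet_lt measurable_const measurable_norm
  have hbi : Integrable (fun x => 1 + 16 / K ^ 2 * exp (5 / 16 * x ^ 2)) std :=
    (integrable_const _).add (hi.const_mul _)
  have hei : Integrable (fun x => exp (1 / 4 * utail K x)) std :=
    hbi.mono' hm.aestronglyMeasurable (Eventually.of_forall fun x => by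
      rw [Real.norm_of_nonneg (exp_pos _).le]; exact hpt x)
  have hq : ∫ x, exp (1 / 4 * utail K x) ∂std ≤ exp (e / 8) := by
    refine (integral_mono hei hbi hpt).trans ?_
    rw [integral_add (integrable_const _) (hi.const_mul _), integral_const_mul, hI]
    simp only [integral_const, probReal_univ, one_smul]
    have h5 : 16 / K ^ 2 * (1 / √(1 - 2 * (5 / 16 : ℝ))) = D / K ^ 2 := by simp only [D]; ring
    have h6 : D / K ^ 2 ≤ e / 8 := by
      rw [div_le_iff₀ (by positivity)]
      have := mul_le_mul_of_nonneg_left hK2 (show 0 ≤ e / 8 by positivity)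
      calc D = e / 8 * (8 * D / e) := by field_simp
        _ ≤ _ := this
    rw [h5]
    linarith [add_one_le_exp (e / 8)]
  refine (iid_tail std n (utail K) (1 / 4) _ e (by norm_num) hei hq).trans (le_of_eq ?_)
  congr 1
  ring

/-- Truncation at level `K`. -/
noncomputable def clip (K x : ℝ) : ℝ := max (-K) (min K x)

theorem clip_neg {K : ℝ} (hK : 0 ≤ K) (x : ℝ) : clip K (-x) = -clip K x := by
  unfold clip
  rcases le_total x (-K) with h | h
  · rw [min_eq_left (by linarith), max_eq_right (by linarith), min_eq_right (by linarith),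
      max_eq_left h]; ring
  rcases le_total x K with h' | h'
  · rw [min_eq_right (by linarith), max_eq_right (by linarith), min_eq_right h', max_eq_right h]
  · rw [min_eq_right (by linarith), max_eq_left (by linarith), min_eq_left h',
      max_eq_right (by linarith)]

theorem abs_clip_le {K : ℝ} (hK : 0 ≤ K) (x : ℝ) : |clip K x| ≤ K :=
  abs_le.2 ⟨le_max_left _ _, max_le (by linarith) (min_le_left _ _)⟩

theorem clip_of_le {K x : ℝ} (h : |x| ≤ K) : clip K x = x := by
  obtain ⟨h1, h2⟩ := abs_le.1 h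
  rw [clip, min_eq_right h2, max_eq_right h1]

theorem abs_clip_le_abs {K : ℝ} (hK : 0 ≤ K) (x : ℝ) : |clip K x| ≤ |x| := by
  rcases le_or_gt |x| K with h | h
  · rw [clip_of_le h]
  · exact (abs_clip_le hK x).trans h.le

theorem measurable_clip (K : ℝ) : Measurable (clip K) := by unfold clip; fun_prop

/-- A site: the two variables of the field and the comparison variable. -/
abbrev Site : Type := (ℝ × ℝ) × ℝ

/-- The four truncated site functions. -/
noncomputable def siteA (K β σ a : ℝ) (s : Site) : ℝ :=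
  clip K s.2 ^ 2 * fw a (pfield β σ s.1)

noncomputable def siteT (K β σ a : ℝ) (s : Site) : ℝ :=
  (2 * β ^ 2 * tanh (pfield β σ s.1) ^ 2 + clip K (β + s.1.1) ^ 2) * fw a (pfield β σ s.1)

noncomputable def siteC (K β σ a : ℝ) (s : Site) : ℝ :=
  clip K s.2 * tanh (pfield β σ s.1) * fw a (pfield β σ s.1)

noncomputable def siteD (K β σ a : ℝ) (s : Site) : ℝ :=
  clip K s.2 * clip K (β + s.1.1) * fw a (pfield β σ s.1)

/-- The sample `(ζ, z, y)` is typical. -/
structure Typical {n : ℕ} (e e' K β σ a mA mT : ℝ) (ζ z y : Fin n → ℝ) : Prop where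
  tail_y : ∑ i, utail K (y i) ≤ n * e
  tail_H : ∑ i, utail K (β + ζ i) ≤ n * e
  sq_y : ∑ i, y i ^ 2 ≤ 3 * n
  sq_ζ : ∑ i, ζ i ^ 2 ≤ 3 * n
  sum_ζ : |∑ i, ζ i| ≤ n * e'
  avgA : ∑ i, siteA K β σ a ((ζ i, z i), y i) ≤ n * (mA + e)
  avgT : ∑ i, siteT K β σ a ((ζ i, z i), y i) ≤ n * (mT + e)
  avgC : |∑ i, siteC K β σ a ((ζ i, z i), y i)| ≤ n * e
  avgD : |∑ i, siteD K β σ a ((ζ i, z i), y i)| ≤ n * e

theorem utail_shift {K b x : ℝ} (hK : 1 ≤ K) (hb : |b| ≤ 1) :
    utail (K + 1) (b + x) ≤ 4 * utail K x := by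
  unfold utail
  by_cases h : K + 1 < |b + x|
  · have h1 : |b + x| ≤ 1 + |x| := (abs_add_le _ _).trans (by linarith)
    have hx : K < |x| := by linarith
    rw [if_pos h, if_pos hx, ← sq_abs (b + x), ← sq_abs x]
    nlinarith [pow_le_pow_left₀ (abs_nonneg (b + x)) h1 2]
  · rw [if_neg h]
    exact mul_nonneg (by norm_num) (utail_nonneg K x)

theorem utail_mono {K K' x : ℝ} (h : K ≤ K') : utail K' x ≤ utail K x := by
  unfold utail
  split_ifs with h1 h2 h2
  · exact le_rfl
  · exact absurd (h.trans_lt h1) h2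
  · positivity
  · exact le_rfl

theorem sum_tail {n : ℕ} {δ : ℝ} (hδ : 0 < δ) :
    (stdPi (Fin n)).real {x | n * δ ≤ ∑ i, x i} ≤ exp (-(δ ^ 2 / 2 * n)) := by
  refine (iid_tail std n (fun x => x) δ (δ ^ 2 / 2) δ hδ.le (integrable_exp_std δ)
    (integral_exp_std δ).le).trans (le_of_eq ?_)
  congr 1
  ring

theorem measurePreserving_site (n : ℕ) :
    MeasurePreserving (fun x : Fin n → Site => ((fun i => (x i).1.1, fun i => (x i).1.2), fun i => (x i).2))
      (Measure.pi fun _ => std2.prod std) (((stdPi (Fin n)).prod (stdPi (Fin n))).prod (stdPi (Fin n))) :=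
  ((measurePreserving_arrowProdEquivProdArrow ℝ ℝ (Fin n) (fun _ => std) fun _ => std).prod
    (MeasurePreserving.id _)).comp
    (measurePreserving_arrowProdEquivProdArrow (ℝ × ℝ) ℝ (Fin n) (fun _ => std2) fun _ => std)

theorem real_preimage {α β : Type*} [MeasurableSpace α] [MeasurableSpace β] {μ : Measure α}
    {ν : Measure β} {f : α → β} (hf : MeasurePreserving f μ ν) {s : Set β} (hs : MeasurableSet s) :
    μ.real (f ⁻¹' s) = ν.real s := by
  simp only [Measure.real, hf.measure_preimage hs.nullMeasurableSet]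

/-- The exceptional samples have exponentially small probability, uniformly in the parameters. -/
theorem typical_prob {e : ℝ} (he : 0 < e) :
    ∃ K : ℝ, 1 ≤ K ∧ ∀ e' : ℝ, 0 < e' → ∃ c : ℝ, 0 < c ∧ ∀ (n : ℕ) (β σ a mA mT : ℝ), 0 ≤ β → β ≤ 1 → a ≤ 1 / 2 →
      ∫ q, fw a (pfield β σ q) ∂std2 ≤ mA →
      ∫ q, (2 * β ^ 2 * tanh (pfield β σ q) ^ 2 + (β + q.1) ^ 2) * fw a (pfield β σ q) ∂std2 ≤ mT →
      (((stdPi (Fin n)).prod (stdPi (Fin n))).prod (stdPi (Fin n))).real
        {p | ¬ Typical e e' K β σ a mA mT p.1.1 p.1.2 p.2} ≤ 12 * exp (-(c * n)) := by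
  obtain ⟨K₀, hK₀, ct, hct, htail⟩ := utail_tail (show 0 < e / 4 by positivity)
  set K := K₀ + 1
  have hK : 1 ≤ K := by linarith
  have hK0 : 0 ≤ K := by linarith
  obtain ⟨cb, hcb, hbdd⟩ := bdd_tail (std2.prod std) (B := 3 * (K ^ 2 + 2)) (by positivity) he
  refine ⟨K, hK, fun e' he' => ?_⟩
  set c := min (min ct cb) (min (1 / 4) (e' ^ 2 / 2))
  have hc : 0 < c := lt_min (lt_min hct hcb) (lt_min (by norm_num) (by positivity))
  refine ⟨c, hc, fun n β σ a mA mT hβ0 hβ ha hA hT => ?_⟩
  set E := exp (-(c * n))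
  have hmono : ∀ r, c ≤ r → exp (-(r * n)) ≤ E := fun r hr =>
    exp_le_exp.2 (neg_le_neg (mul_le_mul_of_nonneg_right hr (Nat.cast_nonneg n)))
  set μ := ((stdPi (Fin n)).prod (stdPi (Fin n))).prod (stdPi (Fin n))
  have hζ : MeasurePreserving (fun p : ((Fin n → ℝ) × (Fin n → ℝ)) × (Fin n → ℝ) => p.1.1) μ
      (stdPi (Fin n)) := measurePreserving_fst.comp measurePreserving_fst
  have hy : MeasurePreserving (fun p : ((Fin n → ℝ) × (Fin n → ℝ)) × (Fin n → ℝ) => p.2) μ
      (stdPi (Fin n)) := measurePreserving_snd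
  -- measurability
  have hUm : ∀ K, Measurable (utail K) := fun K =>
    Measurable.ite (measurableSet_lt measurable_const measurable_norm) (by fun_prop) measurable_const
  have hmf := measurable_fw a
  have hmt := measurable_tanh'
  have hmc := measurable_clip K
  have hmp : Measurable fun s : Site => pfield β σ s.1 := by unfold pfield; fun_prop
  -- the four site functions: bound and mean
  have hfb : ∀ h, |fw a h| ≤ 5 / 2 := fun h => by rw [abs_of_pos (fw_pos ha h)]; exact fw_le ha h
  have ht1 : ∀ h, |tanh h| ≤ 1 := fun h => (abs_tanh_lt_one h).le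
  have hcl : ∀ x, |clip K x| ≤ K := fun x => abs_clip_le hK0 x
  have hcsq : ∀ x, clip K x ^ 2 ≤ K ^ 2 := fun x =>
    sq_le_sq.2 ((hcl x).trans (le_abs_self K))
  have mA' : Measurable (siteA K β σ a) := by unfold siteA; fun_prop
  have mT' : Measurable (siteT K β σ a) := by unfold siteT; fun_prop
  have mC' : Measurable (siteC K β σ a) := by unfold siteC; fun_prop
  have mD' : Measurable (siteD K β σ a) := by unfold siteD; fun_prop
  have bA : ∀ s, |siteA K β σ a s| ≤ 3 * (K ^ 2 + 2) := fun s => by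
    rw [siteA, abs_mul, abs_of_nonneg (sq_nonneg _)]
    calc clip K s.2 ^ 2 * |fw a (pfield β σ s.1)| ≤ K ^ 2 * (5 / 2) :=
          mul_le_mul (hcsq _) (hfb _) (abs_nonneg _) (sq_nonneg K)
      _ ≤ _ := by nlinarith
  have bT : ∀ s, |siteT K β σ a s| ≤ 3 * (K ^ 2 + 2) := fun s => by
    rw [siteT, abs_mul, abs_of_nonneg (by positivity)]
    calc _ ≤ (2 + K ^ 2) * (5 / 2) :=
          mul_le_mul (by
            have h1 := tanh_sq_lt_one (pfield β σ s.1)
            have h2 : β ^ 2 ≤ 1 := pow_le_one₀ hβ0 hβ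
            nlinarith [hcsq (β + s.1.1)]) (hfb _) (abs_nonneg _) (by positivity)
      _ ≤ _ := by nlinarith
  have bC : ∀ s, |siteC K β σ a s| ≤ 3 * (K ^ 2 + 2) := fun s => by
    rw [siteC, abs_mul, abs_mul]
    calc _ ≤ K * 1 * (5 / 2) :=
          mul_le_mul (mul_le_mul (hcl _) (ht1 _) (abs_nonneg _) hK0) (hfb _) (abs_nonneg _) (by positivity)
      _ ≤ _ := by nlinarith
  have bD : ∀ s, |siteD K β σ a s| ≤ 3 * (K ^ 2 + 2) := fun s => by
    rw [siteD, abs_mul, abs_mul]
    calc _ ≤ K * K * (5 / 2) :=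
          mul_le_mul (mul_le_mul (hcl _) (hcl _) (abs_nonneg _) hK0) (hfb _) (abs_nonneg _) (by positivity)
      _ ≤ _ := by nlinarith
  have hclip0 : ∫ x, clip K x ∂std = 0 := by
    have hn : MeasurePreserving (fun x : ℝ => -x) std std :=
      ⟨measurable_neg, by rw [std, gaussianReal_map_neg, neg_zero]⟩
    have h : ∫ x, clip K (-x) ∂std = ∫ x, clip K x ∂std := by
      rw [← integral_map hn.measurable.aemeasurable hmc.aestronglyMeasurable, hn.map_eq]
    simp only [clip_neg hK0, integral_neg] at h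
    linarith
  have hc2 : ∫ x, clip K x ^ 2 ∂std ≤ 1 := by
    have hsq : ∫ x, x ^ 2 ∂std = 1 := by simpa using gauss_decay_sq (le_refl (0 : ℝ))
    rw [← hsq]
    exact integral_mono ((integrable_const (K ^ 2)).mono' (hmc.pow_const 2).aestronglyMeasurable
      (Eventually.of_forall fun x => by rw [Real.norm_of_nonneg (sq_nonneg _)]; exact hcsq x))
      integrable_sq_std fun x => sq_le_sq.2 (abs_clip_le_abs hK0 x)
  have iA : ∫ s, siteA K β σ a s ∂std2.prod std ≤ mA := by
    have e1 : ∀ s : Site, siteA K β σ a s = fw a (pfield β σ s.1) * clip K s.2 ^ 2 := fun s =>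
      mul_comm _ _
    simp only [e1]
    rw [integral_prod_mul (fun q => fw a (pfield β σ q)) fun x => clip K x ^ 2]
    refine (mul_le_of_le_one_right (integral_nonneg fun q => (fw_pos ha _).le) hc2).trans hA
  have iT : ∫ s, siteT K β σ a s ∂std2.prod std ≤ mT := by
    have e1 : ∀ s : Site, siteT K β σ a s =
        (2 * β ^ 2 * tanh (pfield β σ s.1) ^ 2 + clip K (β + s.1.1) ^ 2) * fw a (pfield β σ s.1) * 1 :=
      fun s => (mul_one _).symm
    simp only [e1]
    rw [integral_prod_mul (fun q : ℝ × ℝ => (2 * β ^ 2 * tanh (pfield β σ q) ^ 2 +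
      clip K (β + q.1) ^ 2) * fw a (pfield β σ q)) fun _ : ℝ => (1 : ℝ)]
    simp only [integral_const, probReal_univ, one_smul, mul_one]
    refine le_trans (integral_mono ?_ ?_ fun q => ?_) hT
    · refine (integrable_const ((2 + K ^ 2) * (5 / 2))).mono' (by
        have : Measurable fun q : ℝ × ℝ => pfield β σ q := by unfold pfield; fun_prop
        fun_prop) (Eventually.of_forall fun q => ?_)
      rw [Real.norm_eq_abs, abs_mul, abs_of_nonneg (by positivity)]
      refine mul_le_mul ?_ (hfb _) (abs_nonneg _) (by positivity)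
      have h1 := tanh_sq_lt_one (pfield β σ q)
      have h2 : β ^ 2 ≤ 1 := pow_le_one₀ hβ0 hβ
      nlinarith [hcsq (β + q.1)]
    · refine (((integrable_const (4 : ℝ)).add (integrable_sq_fst.const_mul 2)).const_mul (5 / 2)).mono' (by
        have : Measurable fun q : ℝ × ℝ => pfield β σ q := by unfold pfield; fun_prop
        fun_prop) (Eventually.of_forall fun q => ?_)
      rw [Real.norm_eq_abs, abs_mul, abs_of_nonneg (by positivity), mul_comm (5 / 2 : ℝ)]
      refine mul_le_mul ?_ (hfb _) (abs_nonneg _) (by simp only [Pi.add_apply]; positivity)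
      have h1 := tanh_sq_lt_one (pfield β σ q)
      have h2 : β ^ 2 ≤ 1 := pow_le_one₀ hβ0 hβ
      simp only [Pi.add_apply]
      nlinarith [sq_nonneg (β - q.1)]
    · exact mul_le_mul_of_nonneg_right
        (add_le_add le_rfl (sq_le_sq.2 (abs_clip_le_abs hK0 _))) (fw_pos ha _).le
  have iC : ∫ s, siteC K β σ a s ∂std2.prod std = 0 := by
    have e1 : ∀ s : Site, siteC K β σ a s =
        tanh (pfield β σ s.1) * fw a (pfield β σ s.1) * clip K s.2 := fun s => by
      simp only [siteC]; ring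
    simp only [e1]
    rw [integral_prod_mul (fun q => tanh (pfield β σ q) * fw a (pfield β σ q)) (clip K), hclip0,
      mul_zero]
  have iD : ∫ s, siteD K β σ a s ∂std2.prod std = 0 := by
    have e1 : ∀ s : Site, siteD K β σ a s =
        clip K (β + s.1.1) * fw a (pfield β σ s.1) * clip K s.2 := fun s => by
      simp only [siteD]; ring
    simp only [e1]
    rw [integral_prod_mul (fun q : ℝ × ℝ => clip K (β + q.1) * fw a (pfield β σ q)) (clip K),
      hclip0, mul_zero]
  -- transport of a site sum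
  have site : ∀ f : Site → ℝ, Measurable f → (∀ s, |f s| ≤ 3 * (K ^ 2 + 2)) →
      ∀ m, ∫ s, f s ∂std2.prod std ≤ m →
        μ.real {p | n * (m + e) ≤ ∑ i, f ((p.1.1 i, p.1.2 i), p.2 i)} ≤ E := fun f hf hb m hm => by
    have hms : MeasurableSet {p : ((Fin n → ℝ) × (Fin n → ℝ)) × (Fin n → ℝ) |
        n * (m + e) ≤ ∑ i, f ((p.1.1 i, p.1.2 i), p.2 i)} :=
      measurableSet_le measurable_const
        (Finset.measurable_sum _ fun i _ => hf.comp (by fun_prop))
    rw [← real_preimage (measurePreserving_site n) hms]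
    exact (hbdd f hf hb m hm n).trans (hmono cb ((min_le_left _ _).trans (min_le_right _ _)))
  have onem : ∀ (pr : ((Fin n → ℝ) × (Fin n → ℝ)) × (Fin n → ℝ) → Fin n → ℝ),
      MeasurePreserving pr μ (stdPi (Fin n)) →
      μ.real {p | n * (e / 4) ≤ ∑ i, utail K₀ (pr p i)} ≤ E ∧
      μ.real {p | 3 * (n : ℝ) ≤ ∑ i, pr p i ^ 2} ≤ E ∧
      μ.real {p | n * e' ≤ ∑ i, pr p i} ≤ E ∧ μ.real {p | n * e' ≤ ∑ i, -pr p i} ≤ E := fun pr hπ => by
    refine ⟨?_, ?_, ?_, ?_⟩
    · have h : MeasurableSet {x : Fin n → ℝ | n * (e / 4) ≤ ∑ i, utail K₀ (x i)} :=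
        measurableSet_le measurable_const
          (Finset.measurable_sum _ fun i _ => (hUm K₀).comp (measurable_pi_apply i))
      exact (real_preimage hπ h).trans_le ((htail n).trans
        (hmono ct ((min_le_left _ _).trans (min_le_left _ _))))
    · have h : MeasurableSet {x : Fin n → ℝ | 3 * (n : ℝ) ≤ ∑ i, x i ^ 2} :=
        measurableSet_le measurable_const (by fun_prop)
      refine (real_preimage hπ h).trans_le ((Fast.chi_tail_crude univ _ (m := n) (by simp)).trans ?_)
      refine le_trans (le_of_eq ?_) (hmono (1 / 4) ((min_le_right _ _).trans (min_le_left _ _)))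
      congr 1; ring
    · have h : MeasurableSet {x : Fin n → ℝ | n * e' ≤ ∑ i, x i} :=
        measurableSet_le measurable_const (by fun_prop)
      exact (real_preimage hπ h).trans_le ((sum_tail he').trans
        (hmono _ ((min_le_right _ _).trans (min_le_right _ _))))
    · have hn : MeasurePreserving (fun (x : Fin n → ℝ) i => -x i) (stdPi (Fin n)) (stdPi (Fin n)) :=
        measurePreserving_pi _ _ fun _ => ⟨measurable_neg, by rw [std, gaussianReal_map_neg, neg_zero]⟩
      have h : MeasurableSet {x : Fin n → ℝ | n * e' ≤ ∑ i, x i} :=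
        measurableSet_le measurable_const (by fun_prop)
      exact (real_preimage (hn.comp hπ) h).trans_le ((sum_tail he').trans
        (hmono _ ((min_le_right _ _).trans (min_le_right _ _))))
  obtain ⟨t1, q1, s1, s1'⟩ := onem _ hζ
  obtain ⟨t2, q2, -, -⟩ := onem _ hy
  have a1 := site _ mA' bA mA iA
  have a2 := site _ mT' bT mT iT
  have a3 := site _ mC' bC 0 iC.le
  have a4 := site _ mD' bD 0 iD.le
  have a3' := site _ mC'.neg (fun s => (abs_neg (siteC K β σ a s)).le.trans (bC s)) 0
    (by rw [show (-siteC K β σ a) = fun s => -siteC K β σ a s from rfl, integral_neg, iC, neg_zero])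
  have a4' := site _ mD'.neg (fun s => (abs_neg (siteD K β σ a s)).le.trans (bD s)) 0
    (by rw [show (-siteD K β σ a) = fun s => -siteD K β σ a s from rfl, integral_neg, iD, neg_zero])
  simp only [zero_add] at a3 a4 a3' a4'
  simp only [Pi.neg_apply, Finset.sum_neg_distrib] at a3' a4' s1'
  refine (measureReal_mono
    (s₂ := {p | n * (e / 4) ≤ ∑ i, utail K₀ (p.1.1 i)} ∪
      ({p | n * (e / 4) ≤ ∑ i, utail K₀ (p.2 i)} ∪
      ({p | 3 * (n : ℝ) ≤ ∑ i, p.1.1 i ^ 2} ∪
      ({p | 3 * (n : ℝ) ≤ ∑ i, p.2 i ^ 2} ∪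
      ({p | n * e' ≤ ∑ i, p.1.1 i} ∪
      ({p | n * e' ≤ -∑ i, p.1.1 i} ∪
      ({p | n * (mA + e) ≤ ∑ i, siteA K β σ a ((p.1.1 i, p.1.2 i), p.2 i)} ∪
      ({p | n * (mT + e) ≤ ∑ i, siteT K β σ a ((p.1.1 i, p.1.2 i), p.2 i)} ∪
      ({p | n * e ≤ ∑ i, siteC K β σ a ((p.1.1 i, p.1.2 i), p.2 i)} ∪
      ({p | n * e ≤ -∑ i, siteC K β σ a ((p.1.1 i, p.1.2 i), p.2 i)} ∪
      ({p | n * e ≤ ∑ i, siteD K β σ a ((p.1.1 i, p.1.2 i), p.2 i)} ∪
      {p | n * e ≤ -∑ i, siteD K β σ a ((p.1.1 i, p.1.2 i), p.2 i)}))))))))))) ?_).trans ?_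
  · intro p hp
    by_contra hcon
    simp only [Set.mem_union, Set.mem_ofPred_eq, not_or, not_le] at hcon
    obtain ⟨c1, c2, c3, c4, c5, c6, c7, c8, c9, c10, c11, c12⟩ := hcon
    refine hp ⟨?_, ?_, c4.le, c3.le, abs_le.2 ⟨by linarith, c5.le⟩, c7.le, c8.le,
      abs_le.2 ⟨by linarith, c9.le⟩, abs_le.2 ⟨by linarith, c11.le⟩⟩
    · refine (Finset.sum_le_sum fun i _ => utail_mono (show K₀ ≤ K by linarith)).trans ?_
      nlinarith [mul_nonneg (Nat.cast_nonneg (α := ℝ) n) he.le]
    · refine (Finset.sum_le_sum fun i _ =>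
        utail_shift hK₀ (abs_le.2 ⟨by linarith, hβ⟩)).trans ?_
      rw [← Finset.mul_sum]
      linarith
  · refine (measureReal_union_le _ _).trans ?_
    calc _ ≤ E + (E + (E + (E + (E + (E + (E + (E + (E + (E + (E + E)))))))))) :=
          add_le_add t1 ((measureReal_union_le _ _).trans (add_le_add t2
            ((measureReal_union_le _ _).trans (add_le_add q1 ((measureReal_union_le _ _).trans
              (add_le_add q2 ((measureReal_union_le _ _).trans (add_le_add s1
                ((measureReal_union_le _ _).trans (add_le_add s1' ((measureReal_union_le _ _).trans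
                  (add_le_add a1 ((measureReal_union_le _ _).trans (add_le_add a2
                    ((measureReal_union_le _ _).trans (add_le_add a3 ((measureReal_union_le _ _).trans
                      (add_le_add a3' ((measureReal_union_le _ _).trans (add_le_add a4 a4'))))))))))))))))))))
      _ = 12 * E := by ring

end Vale.Agent.P150.Beyond.Planted
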